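/-
Row 324 (S0582), PDE core, module LD (architect helper325).   Blueprint 7.4 (origin/helper232:docs/R324_blueprint.md), tag LD0.      FILE LD0/Defs
Definitions of LD0 and the class `SmS` (functions of `(t,y)` which are smooth near the closed strip `t < 0`, `y ∈ [-1,1]`; the weights `wL`, `wH` are of this class, but not `Sm`).
   `dTT U = ∂_t U`,     `dfL q g U = ∂_t U - Lop q g U`  (the DEFECT; a triple of functions on all of `t < 0`, `y ∈ ℝ`),
   `muF g = ∂_t Z / Z`,   `FFop q g U`  = the first order part of the commutator:      `∂_t (L U) = L (∂_t U) + μ L U + FF U`      (`ld0_comm`, LD0/Comm.lean).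
(`dT3`, `hdef` of Core/HI/Defs.lean are the same functions as `dTT`, `dfL q (bgR q g)`: `rfl`.)
* `SmS.dT`:  fix `p = (t,y)`.  `ContDiffAt ℝ ∞` ⟺ `∀ n : ℕ, ContDiffAt ℝ n` (`contDiffAt_infty`).   `F` is differentiable near `p` (`ContDiffAt.eventually` for the order 1), there `dT F r = fderiv ℝ F r (1,0)`
    (`HasFDerivAt.comp_hasDerivAt` with `s ↦ (s, r.2)`), and `r ↦ fderiv ℝ F r (1,0)` is `ContDiffAt ℝ n` (`ContDiffAt.fderiv_right` + `clm_apply`);  `ContDiffAt.congr_of_eventuallyEq`.     Model: `SmI.deriv` in Core/W/TtCalc.lean.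
* `ld0_dui`:  `G (s,x) := F (s, cos (π x))` is `E2Sm 0` (`cos (π x) ∈ [-1,1]`; `ContDiffAt.comp`; `ContDiffAt.contDiffWithinAt`);   `II (sl F s) = π ∫_0^1 G (s,x) dx`  (`intervalIntegral.integral_comp_mul_left`/`smul_integral_comp_mul_left`, `π ≠ 0`);
    `e2_hasDerivAt_integral` (R324/E2/Dui.lean);   `e2Pdt G (t,x) = dT F (t, cos (π x))` by `rfl`.
-/
import Claimed.Agent.R324.Core.W.FormBd
import Claimed.Agent.R324.Core.W.FormId2
import Claimed.Agent.R324.Core.W.TB
import Claimed.Agent.R324.E2.Dui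

set_option autoImplicit false

namespace Claimed.Agent.R324.Core

open Set Filter Topology MeasureTheory
open scoped ContDiff

noncomputable section

/-- componentwise time derivative of a triple. -/
def dTT (U : Tri) : Tri := fun j => dT (U j)

/-- the defect `∂_t U - L U`. -/
def dfL (q : ℝ) (g : Bg) (U : Tri) : Tri := fun j p => dT (U j) p - Lop q g U j p

/-- `μ = ∂_t Z / Z`. -/
def muF (g : Bg) : Fn := fun p => dT g.Z p / g.Z p

/-- the first order part of the commutator `[∂_t, L]`. -/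
def FFop (q : ℝ) (g : Bg) (U : Tri) : Tri := fun j p =>
  Xf p.2 * (dT g.w1 p - muF g p * g.w1 p) * dY (U j) p
    + ∑ k, facJ j k p.2 * (dT (g.cf q j k) p - muF g p * g.cf q j k p) * U k p

/-- smooth near the closed strip. -/
def SmS (F : Fn) : Prop := ∀ t < 0, ∀ y ∈ Icc (-1 : ℝ) 1, ContDiffAt ℝ ∞ F (t, y)

/-- hygiene. -/
theorem core_ld0_defs_hygiene : True := by
  have := @dTT.eq_1
  have := @dfL.eq_1
  have := @muF.eq_1
  have := @FFop.eq_1
  have := @SmS.eq_1
  trivial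

variable {F G : Fn} {t y : ℝ}

theorem sm_dTT {U : Tri} (hU : ∀ j, Sm (U j)) (j : Fin 3) : Sm (dTT U j) := (hU j).dT

theorem Sm.smS (h : Sm F) : SmS F := fun _ ht _ _ => h.contDiffAt ht

theorem SmS.add (hF : SmS F) (hG : SmS G) : SmS (fun p => F p + G p) := fun t ht y hy => (hF t ht y hy).add (hG t ht y hy)

theorem SmS.sub (hF : SmS F) (hG : SmS G) : SmS (fun p => F p - G p) := fun t ht y hy => (hF t ht y hy).sub (hG t ht y hy)

theorem SmS.neg (hF : SmS F) : SmS (fun p => -F p) := fun t ht y hy => (hF t ht y hy).neg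

theorem SmS.mul (hF : SmS F) (hG : SmS G) : SmS (fun p => F p * G p) := fun t ht y hy => (hF t ht y hy).mul (hG t ht y hy)

theorem SmS.pow (hF : SmS F) (n : ℕ) : SmS (fun p => F p ^ n) := fun t ht y hy => (hF t ht y hy).pow n

theorem SmS.const_mul (c : ℝ) (hF : SmS F) : SmS (fun p => c * F p) := fun t ht y hy => contDiffAt_const.mul (hF t ht y hy)

theorem SmS.smI (hF : SmS F) (ht : t < 0) : SmI (sl F t) := fun y hy =>
  (hF t ht y hy).comp y (contDiffAt_const.prodMk contDiffAt_id)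

theorem smS_wL (a M : ℕ) (q Γ : ℝ) : SmS (fun p => wL a M q Γ p.1 p.2) := fun _ ht _ hy => w0_contDiffAt_wL a M q Γ ht hy

theorem smS_wH (a M : ℕ) (q : ℝ) : SmS (fun p => wH a M q p.1 p.2) := fun _ ht _ hy => w0_contDiffAt_wH a M q ht hy

theorem SmS.hasDerivAt_t (hF : SmS F) (ht : t < 0) (hy : y ∈ Icc (-1 : ℝ) 1) :
    HasDerivAt (fun s => F (s, y)) (dT F (t, y)) t := by
  have h1 : ContDiffAt ℝ ∞ (fun s : ℝ => F (s, y)) t :=
    (hF t ht y hy).comp t (contDiffAt_id.prodMk contDiffAt_const)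
  exact (h1.differentiableAt (by simp)).hasDerivAt

theorem SmS.dT (hF : SmS F) : SmS (Core.dT F) := by
  intro t ht y hy
  have h0 := hF t ht y hy
  have h : ContDiffAt ℝ ∞ (fderiv ℝ F) (t, y) := h0.fderiv_right (m := ∞) (by simp)
  have h1 : ContDiffAt ℝ ∞ (fun r => fderiv ℝ F r ((1 : ℝ), (0 : ℝ))) (t, y) := h.clm_apply contDiffAt_const
  have h2 : ∀ᶠ r in 𝓝 (t, y), ContDiffAt ℝ 1 F r :=
    (h0.of_le (by simp : (1 : WithTop ℕ∞) ≤ ∞)).eventually (by simp)
  refine h1.congr_of_eventuallyEq ?_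
  filter_upwards [h2] with r hr
  have h3 : HasFDerivAt F (fderiv ℝ F r) (r.1, r.2) := (hr.differentiableAt (by simp)).hasFDerivAt
  have h4 : HasDerivAt (fun s : ℝ => (s, r.2)) ((1 : ℝ), (0 : ℝ)) r.1 :=
    (hasDerivAt_id r.1).prodMk (hasDerivAt_const r.1 r.2)
  exact (h3.comp_hasDerivAt r.1 h4).deriv

/-- **differentiation under `𝕀`.** -/
theorem ld0_dui (hF : SmS F) (ht : t < 0) : HasDerivAt (fun s => II (sl F s)) (II (sl (dT F) t)) t := by
  have hG : E2Sm 0 (fun p : ℝ × ℝ => F (p.1, Real.cos (Real.pi * p.2))) := by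
    intro p hp
    have h1 : ContDiffAt ℝ ∞ F (p.1, Real.cos (Real.pi * p.2)) :=
      hF p.1 hp.1 _ ⟨Real.neg_one_le_cos _, Real.cos_le_one _⟩
    have h2 : ContDiffAt ℝ ∞ (fun p : ℝ × ℝ => (p.1, Real.cos (Real.pi * p.2))) p :=
      contDiffAt_fst.prodMk (Real.contDiff_cos.contDiffAt.comp p (contDiffAt_const.mul contDiffAt_snd))
    exact (h1.comp p h2).contDiffWithinAt
  have key : ∀ f : ℝ → ℝ, II f = Real.pi * ∫ x in (0 : ℝ)..1, f (Real.cos (Real.pi * x)) := by
    intro f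
    unfold II
    have := intervalIntegral.mul_integral_comp_mul_left (a := 0) (b := 1) (f := fun ϑ => f (Real.cos ϑ)) Real.pi
    rw [this]
    simp
  have h3 := (e2_hasDerivAt_integral hG ht).const_mul Real.pi
  have e1 : (fun s => II (sl F s)) = fun s => Real.pi * ∫ x in (0 : ℝ)..1, F (s, Real.cos (Real.pi * x)) := by
    funext s
    exact key _
  rw [e1, key]
  exact h3

end

end Claimed.Agent.R324.Core
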