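/-
Row 324 (S0582), PDE core, module LD (architect helper325).   Blueprint 7.4, tag LD0 (a),(c),(d).      FILE LD0/Comm:  linearity, commutator with `∂_t`, congruence.
   `Lop q g U j = Z X U_j'' + (-d_j y Z + X 𝗐₁) U_j' + Σ_k fac_jk c_jk U_k`      (Core/Defs.lean).
* `ld0_lop_sub`:  unfold `Lop`;  `dY_sub`, (twice; `Sm.dY`), `Finset.sum_sub_distrib`/`Fin.sum_univ_three`; ring.
* `ld0_comm`:  the function `s ↦ Lop q g U j (s,y)` is a sum of products of `Sm` functions;  `dT_add`, `dT_mul`, `dT_y_mul`/`dT_const_mul` (Core/PR/Sm.lean; the factors `Xf y`, `y`, `facJ j k y`, `dimJ q j` do not depend on `t`), `Sm.dT_dY` (`∂_t ∂_y = ∂_y ∂_t`), `BgSm.smZ`, `.smw1`, `.smcf`.   This gives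
        `∂_t (L U)_j = L(∂_t U)_j + ∂_t Z (X U_j'' - d_j y U_j') + X ∂_t 𝗐₁ U_j' + Σ fac ∂_t c_jk U_k`;
     eliminate `X U_j'' - d_j y U_j' = ((L U)_j - X 𝗐₁ U_j' - Σ fac c_jk U_k)/Z`   (`Z ≠ 0`: `BgSm.Z_pos`);   unfold `muF`, `FFop`;  `field_simp`, `ring` (sums: `Fin.sum_univ_three`).
* `ld0_defect_L`:   `v = L U`:   `∂_t v - L v = L(∂_t U) - L(L U) + μ v + FF U = L(dfL U) + μ v + FF U`      (`ld0_comm`, `ld0_lop_sub` with `dTT U`, `Lop q g U`; `sm_Lop`).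
* `ld0_FF_bound`:  u-form of `FF U`  (`CoefB`, Core/W/Coef.lean:  `1/C ≤ Z`, `|∂_t Z| ≤ C/Θ` (`hc.Z.b10`), so `|μ| ≤ C²/Θ`;  `|𝗐₁| ≤ C/r̂²`, `|∂_t 𝗐₁| ≤ C/(r̂² Θ)`;  the same for `c_jk` (`j ≠ 2` or `k = 2`) and for `X c_2k` (`hc.cfX`; `∂_t (X c_2k) = X ∂_t c_2k`: `dT_y_mul`)):
        j = 0,1:   `(FF U)_j = -(∂_t 𝗐₁ - μ 𝗐₁) tt U_j + Σ_k (∂_t c_jk - μ c_jk) u_k`        (`X U_j' = -tt U_j`;  `fac_j2 U₂ = X U₂ = u₂`);
        j = 2:     `X (FF U)_2 = (∂_t 𝗐₁ - μ 𝗐₁)(2 y u₂ - tt u₂) + Σ_{k<2} (X ∂_t c_2k - μ X c_2k) U_k + (∂_t c_22 - μ c_22) u₂`        (`X² U₂' = 2 y u₂ - tt u₂`).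
     Every coefficient is `≤ (C + C³)/(r̂² Θ)`;   each `|u_k|, |tt u_k| ≤ 2 √(n2), 2 √(n2t)` (`abs_le_sqrt_nk`) or directly `u_k² ≤ 2 n2`.     `n2 (FF U) = Σ κ_i (uV (FF U)_i)²`, `κ_i ≤ q + 1`.
* `ld0_Di_congr`, `ld0_En_congr`:  `ii_congr`;  `n2` depends only on the values;  `n2t`:  for `y ∈ (-1,1)` the two functions coincide near `y` (`Ioo_mem_nhds`), so `tt` coincides (`tt_congr`);  for `y = ±1`: `tt f y = -(1 - y²) f' = 0`.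
* `ld0_lop_congr`:  smooth triples which coincide on `[-1,1]` have the same `L` on `[-1,1]`:   in `(-1,1)` germs;   at `y = ±1` by continuity of both sides (`sm_Lop`, `Sm.sl`, closure of `(-1,1)`: e.g. `ContinuousOn.…`/`Set.EqOn.closure`/`Continuous.ext_on` on `closure (Ioo (-1) 1) = Icc (-1) 1`).
-/
import Claimed.Agent.R324.Core.LD0.Defs
import Claimed.Agent.R324.Core.PR.SmU

set_option autoImplicit false

namespace Claimed.Agent.R324.Core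

open Set Filter Topology MeasureTheory
open scoped ContDiff

noncomputable section

variable {q t Λ₀ C : ℝ} {g : Bg} {U W : Tri}

theorem sm_dfL (q : ℝ) (hs : BgSm g) (hU : ∀ j, Sm (U j)) (j : Fin 3) : Sm (dfL q g U j) :=
  (hU j).dT.sub (sm_Lop q hs hU j)

theorem sm_muF (hs : BgSm g) : Sm (muF g) := hs.smZ.dT.div hs.smZ (fun _ ht y => (hs.Z_pos ht y).ne')

theorem sm_FFop (q : ℝ) (hs : BgSm g) (hU : ∀ j, Sm (U j)) (j : Fin 3) : Sm (FFop q g U j) := by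
  unfold FFop
  refine Sm.add ((sm_Xf.mul (hs.smw1.dT.sub ((sm_muF hs).mul hs.smw1))).mul (hU j).dY) ?_
  exact sm_sum Finset.univ (fun k _ => ((smu_a_facJ j k).mul
    ((hs.smcf q j k).dT.sub ((sm_muF hs).mul (hs.smcf q j k)))).mul (hU k))

theorem ld0_lop_sub (q : ℝ) (g : Bg) (hU : ∀ j, Sm (U j)) (hW : ∀ j, Sm (W j)) (ht : t < 0) (y : ℝ) (j : Fin 3) :
    Lop q g (fun j p => U j p - W j p) j (t, y) = Lop q g U j (t, y) - Lop q g W j (t, y) := by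
  have h1 : dY (fun p => U j p - W j p) (t, y) = dY (U j) (t, y) - dY (W j) (t, y) :=
    dY_sub (hU j) (hW j) ht y
  have h2 : dY (dY (fun p => U j p - W j p)) (t, y) = dY (dY (U j)) (t, y) - dY (dY (W j)) (t, y) := by
    rw [dY_congr (g := fun p => dY (U j) p - dY (W j) p) (fun z => dY_sub (hU j) (hW j) ht z) y]
    exact dY_sub (hU j).dY (hW j).dY ht y
  show g.Z (t, y) * Xf y * dY (dY (fun p => U j p - W j p)) (t, y)
      + (-(dimJ q j) * y * g.Z (t, y) + Xf y * g.w1 (t, y)) * dY (fun p => U j p - W j p) (t, y)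
      + ∑ k, facJ j k y * g.cf q j k (t, y) * (U k (t, y) - W k (t, y))
    = (g.Z (t, y) * Xf y * dY (dY (U j)) (t, y)
      + (-(dimJ q j) * y * g.Z (t, y) + Xf y * g.w1 (t, y)) * dY (U j) (t, y)
      + ∑ k, facJ j k y * g.cf q j k (t, y) * U k (t, y))
    - (g.Z (t, y) * Xf y * dY (dY (W j)) (t, y)
      + (-(dimJ q j) * y * g.Z (t, y) + Xf y * g.w1 (t, y)) * dY (W j) (t, y)
      + ∑ k, facJ j k y * g.cf q j k (t, y) * W k (t, y))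
  rw [h1, h2]
  simp only [Fin.sum_univ_three]
  ring

/-- **level one**:   `∂_t (L U) = L (∂_t U) + μ L U + FF U`. -/
theorem ld0_comm (q : ℝ) (hs : BgSm g) (hU : ∀ j, Sm (U j)) (ht : t < 0) (y : ℝ) (j : Fin 3) :
    dT (Lop q g U j) (t, y)
      = Lop q g (dTT U) j (t, y) + muF g (t, y) * Lop q g U j (t, y) + FFop q g U j (t, y) := by
  have hZ := hs.smZ.hasDerivAt_t ht y
  have hA := (hU j).dY.dY.hasDerivAt_t ht y
  have hB := (hU j).dY.hasDerivAt_t ht y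
  have hw := hs.smw1.hasDerivAt_t ht y
  have hc := fun k => (hs.smcf q j k).hasDerivAt_t ht y
  have hUk := fun k => (hU k).hasDerivAt_t ht y
  have eB : dT (dY (U j)) (t, y) = dY (dT (U j)) (t, y) := (hU j).dT_dY ht y
  have eA : dT (dY (dY (U j))) (t, y) = dY (dY (dT (U j))) (t, y) := by
    rw [(hU j).dY.dT_dY ht y]
    exact dY_congr (fun z => (hU j).dT_dY ht z) y
  rw [eA] at hA
  rw [eB] at hB
  have hD := (((hZ.mul_const (Xf y)).mul hA).add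
    (((hZ.const_mul (-(dimJ q j) * y)).add (hw.const_mul (Xf y))).mul hB)).add
    (((((hc 0).const_mul (facJ j 0 y)).mul (hUk 0)).add (((hc 1).const_mul (facJ j 1 y)).mul (hUk 1))).add
      (((hc 2).const_mul (facJ j 2 y)).mul (hUk 2)))
  have hL : (fun s => Lop q g U j (s, y)) = fun s => g.Z (s, y) * Xf y * dY (dY (U j)) (s, y)
      + (-(dimJ q j) * y * g.Z (s, y) + Xf y * g.w1 (s, y)) * dY (U j) (s, y)
      + (facJ j 0 y * g.cf q j 0 (s, y) * U 0 (s, y) + facJ j 1 y * g.cf q j 1 (s, y) * U 1 (s, y)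
        + facJ j 2 y * g.cf q j 2 (s, y) * U 2 (s, y)) := by
    funext s
    unfold Lop
    rw [Fin.sum_univ_three]
  have hdT : dT (Lop q g U j) (t, y) = deriv (fun s => Lop q g U j (s, y)) t := rfl
  rw [hdT, hL]
  have hD' := hD.deriv
  refine Eq.trans hD' ?_
  have hZ0 : g.Z (t, y) ≠ 0 := (hs.Z_pos ht y).ne'
  unfold Lop FFop muF dTT
  simp only [Fin.sum_univ_three, Pi.add_apply]
  field_simp
  ring

/-- the defect of `v = L U`. -/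
theorem ld0_defect_L (q : ℝ) (hs : BgSm g) (hU : ∀ j, Sm (U j)) (ht : t < 0) (y : ℝ) (j : Fin 3) :
    dfL q g (Lop q g U) j (t, y)
      = Lop q g (dfL q g U) j (t, y) + muF g (t, y) * Lop q g U j (t, y) + FFop q g U j (t, y) := by
  have h1 := ld0_comm q hs hU ht y j
  have h2 := ld0_lop_sub q g (U := dTT U) (W := Lop q g U) (sm_dTT hU) (sm_Lop q hs hU) ht y j
  have h3 : Lop q g (dfL q g U) j (t, y)
      = Lop q g (dTT U) j (t, y) - Lop q g (Lop q g U) j (t, y) := h2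
  show dT (Lop q g U j) (t, y) - Lop q g (Lop q g U) j (t, y) = _
  rw [h1, h3]
  ring

theorem ld0_mu_bound (hC : 0 < C) (hc : CoefB q g Λ₀ C) (ht : t ∈ Ico (-Λ₀) 0) {y : ℝ} (hy : y ∈ Icc (-1 : ℝ) 1) :
    |muF g (t, y)| ≤ C * |dT g.Z (t, y)| ∧ |muF g (t, y)| ≤ C ^ 2 / Th t y := by
  have hZ := hc.Zlow t ht y hy
  have hC1 : 0 < 1 / C := by positivity
  have hZ0 : 0 < g.Z (t, y) := lt_of_lt_of_le hC1 hZ
  have hT : 0 < Th t y := wc_coef_Th_pos ht hy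
  have hinv : 1 / g.Z (t, y) ≤ C := by
    rw [div_le_iff₀ hZ0]
    rw [div_le_iff₀ hC] at hZ
    linarith
  have h1 : |muF g (t, y)| ≤ C * |dT g.Z (t, y)| := by
    unfold muF
    rw [abs_div, abs_of_pos hZ0, div_eq_mul_one_div, mul_comm]
    exact mul_le_mul_of_nonneg_right hinv (abs_nonneg _)
  refine ⟨h1, h1.trans ?_⟩
  have h2 := hc.Z.b10 ht hy
  rw [mul_one] at h2
  calc C * |dT g.Z (t, y)| ≤ C * (C / Th t y) := mul_le_mul_of_nonneg_left h2 hC.le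
    _ = C ^ 2 / Th t y := by ring

/-- (aux) a coefficient of `FFop`. -/
theorem ld0_ff_coef {f : Fn} (hq : 100 ≤ q) (hC : 0 < C) (hc : CoefB q g Λ₀ C) (hf : TtB Λ₀ C (fun t y => 1 / rh2 q t y) f)
    (ht : t ∈ Ico (-Λ₀) 0) {y : ℝ} (hy : y ∈ Icc (-1 : ℝ) 1) :
    |dT f (t, y) - muF g (t, y) * f (t, y)| ≤ (C + C ^ 3) / (rh2 q t y * Th t y) := by
  have hT : 0 < Th t y := wc_coef_Th_pos ht hy
  have hR : 0 < rh2 q t y := w0_rh2_pos (by linarith) ht.2 hy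
  have h1 := hf.b10 ht hy
  have h0 := hf.b00 ht hy
  have hμ := (ld0_mu_bound hC hc ht hy).2
  have h2 : |muF g (t, y) * f (t, y)| ≤ C ^ 2 / Th t y * (C * (1 / rh2 q t y)) := by
    rw [abs_mul]
    exact mul_le_mul hμ h0 (abs_nonneg _) (by positivity)
  calc |dT f (t, y) - muF g (t, y) * f (t, y)| ≤ |dT f (t, y)| + |muF g (t, y) * f (t, y)| := abs_sub _ _
    _ ≤ C * (1 / rh2 q t y) / Th t y + C ^ 2 / Th t y * (C * (1 / rh2 q t y)) := add_le_add h1 h2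
    _ = (C + C ^ 3) / (rh2 q t y * Th t y) := by
        field_simp

/-- (aux) Cauchy-Schwarz with four terms. -/
theorem ld0_ff_four {A c1 c2 c3 c4 : ℝ} (v1 v2 v3 v4 : ℝ) (h1 : |c1| ≤ A) (h2 : |c2| ≤ A) (h3 : |c3| ≤ A) (h4 : |c4| ≤ A) :
    (c1 * v1 + c2 * v2 + c3 * v3 + c4 * v4) ^ 2 ≤ 4 * A ^ 2 * (v1 ^ 2 + v2 ^ 2 + v3 ^ 2 + v4 ^ 2) := by
  have hA : 0 ≤ A := (abs_nonneg _).trans h1
  have e : ∀ c v : ℝ, |c| ≤ A → |c * v| ≤ A * |v| := fun c v h => by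
    rw [abs_mul]
    exact mul_le_mul_of_nonneg_right h (abs_nonneg _)
  have hs : |c1 * v1 + c2 * v2 + c3 * v3 + c4 * v4| ≤ A * (|v1| + |v2| + |v3| + |v4|) := by
    have a1 := abs_add_le (c1 * v1 + c2 * v2 + c3 * v3) (c4 * v4)
    have a2 := abs_add_le (c1 * v1 + c2 * v2) (c3 * v3)
    have a3 := abs_add_le (c1 * v1) (c2 * v2)
    have b1 := e c1 v1 h1
    have b2 := e c2 v2 h2
    have b3 := e c3 v3 h3
    have b4 := e c4 v4 h4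
    nlinarith
  have hsq : (c1 * v1 + c2 * v2 + c3 * v3 + c4 * v4) ^ 2 ≤ (A * (|v1| + |v2| + |v3| + |v4|)) ^ 2 := by
    rw [← sq_abs (c1 * v1 + c2 * v2 + c3 * v3 + c4 * v4)]
    exact pow_le_pow_left₀ (abs_nonneg _) hs 2
  have hcs : (|v1| + |v2| + |v3| + |v4|) ^ 2 ≤ 4 * (v1 ^ 2 + v2 ^ 2 + v3 ^ 2 + v4 ^ 2) := by
    rw [← sq_abs v1, ← sq_abs v2, ← sq_abs v3, ← sq_abs v4]
    nlinarith [sq_nonneg (|v1| - |v2|), sq_nonneg (|v1| - |v3|), sq_nonneg (|v1| - |v4|), sq_nonneg (|v2| - |v3|),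
      sq_nonneg (|v2| - |v4|), sq_nonneg (|v3| - |v4|)]
  calc (c1 * v1 + c2 * v2 + c3 * v3 + c4 * v4) ^ 2 ≤ (A * (|v1| + |v2| + |v3| + |v4|)) ^ 2 := hsq
    _ = A ^ 2 * (|v1| + |v2| + |v3| + |v4|) ^ 2 := by ring
    _ ≤ A ^ 2 * (4 * (v1 ^ 2 + v2 ^ 2 + v3 ^ 2 + v4 ^ 2)) := mul_le_mul_of_nonneg_left hcs (sq_nonneg _)
    _ = 4 * A ^ 2 * (v1 ^ 2 + v2 ^ 2 + v3 ^ 2 + v4 ^ 2) := by ring

/-- (aux) every component is controlled by the `κ`-norm. -/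
theorem ld0_ff_nk {κ v0 v1 v2 : ℝ} (hq : 100 ≤ q) (hk : 1 / 2 ≤ κ) :
    v0 ^ 2 ≤ 2 * ((q + 1) * v0 ^ 2 + 2 * v1 ^ 2 + κ * v2 ^ 2) ∧ v1 ^ 2 ≤ 2 * ((q + 1) * v0 ^ 2 + 2 * v1 ^ 2 + κ * v2 ^ 2)
      ∧ v2 ^ 2 ≤ 2 * ((q + 1) * v0 ^ 2 + 2 * v1 ^ 2 + κ * v2 ^ 2) ∧ 0 ≤ (q + 1) * v0 ^ 2 + 2 * v1 ^ 2 + κ * v2 ^ 2 := by
  have p0 := sq_nonneg v0
  have p1 := sq_nonneg v1
  have p2 := sq_nonneg v2
  have a0 : 1 * v0 ^ 2 ≤ (q + 1) * v0 ^ 2 := mul_le_mul_of_nonneg_right (by linarith) p0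
  have a2 : 1 / 2 * v2 ^ 2 ≤ κ * v2 ^ 2 := mul_le_mul_of_nonneg_right hk p2
  refine ⟨by linarith, by linarith, by linarith, by linarith⟩

/-- (aux) one component of `FF U`. -/
theorem ld0_ff_comp {A c1 c2 c3 c4 v1 v2 v3 v4 W m : ℝ} (h1 : |c1| ≤ A) (h2 : |c2| ≤ A) (h3 : |c3| ≤ A) (h4 : |c4| ≤ A)
    (hs : v1 ^ 2 + v2 ^ 2 + v3 ^ 2 + v4 ^ 2 ≤ m * W) :
    (c1 * v1 + c2 * v2 + c3 * v3 + c4 * v4) ^ 2 ≤ 4 * m * (A ^ 2 * W) := by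
  refine (ld0_ff_four v1 v2 v3 v4 h1 h2 h3 h4).trans ?_
  have := mul_le_mul_of_nonneg_left hs (sq_nonneg A)
  calc 4 * A ^ 2 * (v1 ^ 2 + v2 ^ 2 + v3 ^ 2 + v4 ^ 2) = 4 * (A ^ 2 * (v1 ^ 2 + v2 ^ 2 + v3 ^ 2 + v4 ^ 2)) := by ring
    _ ≤ 4 * (A ^ 2 * (m * W)) := by linarith
    _ = 4 * m * (A ^ 2 * W) := by ring

/-- (aux) `(2 y u - s)² ≤ 8 u² + 2 s²`. -/
theorem ld0_ff_v {y u s : ℝ} (hy : y ∈ Icc (-1 : ℝ) 1) : (2 * y * u - s) ^ 2 ≤ 8 * u ^ 2 + 2 * s ^ 2 := by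
  have hy2 : y ^ 2 ≤ 1 := by
    have h1 := hy.1
    have h2 := hy.2
    nlinarith
  have h5 : y ^ 2 * u ^ 2 ≤ 1 * u ^ 2 := mul_le_mul_of_nonneg_right hy2 (sq_nonneg u)
  have h4 : (2 * y * u) ^ 2 = 4 * (y ^ 2 * u ^ 2) := by ring
  have h6 : (2 * y * u - s) ^ 2 + (2 * y * u + s) ^ 2 = 2 * (2 * y * u) ^ 2 + 2 * s ^ 2 := by ring
  have h7 := sq_nonneg (2 * y * u + s)
  linarith

/-- (aux) the algebra of `ld0_FF_bound`. -/
theorem ld0_ff_alg {A y u0 u1 u2 s0 s1 s2 a e00 e01 e02 e10 e11 e12 x20 x21 e22 : ℝ} (hq : 100 ≤ q) (hy : y ∈ Icc (-1 : ℝ) 1)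
    (ha : |a| ≤ A) (h00 : |e00| ≤ A) (h01 : |e01| ≤ A) (h02 : |e02| ≤ A) (h10 : |e10| ≤ A) (h11 : |e11| ≤ A)
    (h12 : |e12| ≤ A) (h20 : |x20| ≤ A) (h21 : |x21| ≤ A) (h22 : |e22| ≤ A) :
    (q + 1) * (a * (-s0) + e00 * u0 + e01 * u1 + e02 * u2) ^ 2 + 2 * (a * (-s1) + e10 * u0 + e11 * u1 + e12 * u2) ^ 2
        + q / (q + 1) * (a * (2 * y * u2 - s2) + x20 * u0 + x21 * u1 + e22 * u2) ^ 2
      ≤ (24 * q + 160) * A ^ 2 * (((q + 1) * s0 ^ 2 + 2 * s1 ^ 2 + q / (q + 1) * s2 ^ 2)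
          + ((q + 1) * u0 ^ 2 + 2 * u1 ^ 2 + q / (q + 1) * u2 ^ 2)) := by
  have hq1 : 0 < q + 1 := by linarith
  have hk : 1 / 2 ≤ q / (q + 1) := by
    rw [le_div_iff₀ hq1]
    linarith
  have hk1 : q / (q + 1) ≤ 1 := by
    rw [div_le_one hq1]
    linarith
  obtain ⟨b_s0, b_s1, b_s2, hNt0⟩ := ld0_ff_nk (v0 := s0) (v1 := s1) (v2 := s2) hq hk
  obtain ⟨b_u0, b_u1, b_u2, hN0⟩ := ld0_ff_nk (v0 := u0) (v1 := u1) (v2 := u2) hq hk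
  have hv := ld0_ff_v (u := u2) (s := s2) hy
  generalize q / (q + 1) = κ at *
  generalize hNt : (q + 1) * s0 ^ 2 + 2 * s1 ^ 2 + κ * s2 ^ 2 = Nt at *
  generalize hN : (q + 1) * u0 ^ 2 + 2 * u1 ^ 2 + κ * u2 ^ 2 = N at *
  have g0 : (a * (-s0) + e00 * u0 + e01 * u1 + e02 * u2) ^ 2 ≤ 4 * 6 * (A ^ 2 * (Nt + N)) :=
    ld0_ff_comp ha h00 h01 h02 (by rw [neg_sq]; linarith)
  have g1 : (a * (-s1) + e10 * u0 + e11 * u1 + e12 * u2) ^ 2 ≤ 4 * 6 * (A ^ 2 * (Nt + N)) :=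
    ld0_ff_comp ha h10 h11 h12 (by rw [neg_sq]; linarith)
  have g2 : (a * (2 * y * u2 - s2) + x20 * u0 + x21 * u1 + e22 * u2) ^ 2 ≤ 4 * 22 * (A ^ 2 * (Nt + N)) :=
    ld0_ff_comp ha h20 h21 h22 (by linarith)
  have hW : 0 ≤ A ^ 2 * (Nt + N) := mul_nonneg (sq_nonneg A) (by linarith)
  have e : (24 * q + 160) * A ^ 2 * (Nt + N) = (24 * q + 160) * (A ^ 2 * (Nt + N)) := by ring
  rw [e]
  generalize A ^ 2 * (Nt + N) = W at *
  generalize (a * (-s0) + e00 * u0 + e01 * u1 + e02 * u2) ^ 2 = X0 at *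
  generalize (a * (-s1) + e10 * u0 + e11 * u1 + e12 * u2) ^ 2 = X1 at *
  have hX2 := sq_nonneg (a * (2 * y * u2 - s2) + x20 * u0 + x21 * u1 + e22 * u2)
  generalize (a * (2 * y * u2 - s2) + x20 * u0 + x21 * u1 + e22 * u2) ^ 2 = X2 at *
  have t0 : (q + 1) * X0 ≤ (q + 1) * (4 * 6 * W) := mul_le_mul_of_nonneg_left g0 hq1.le
  have t2 : κ * X2 ≤ 1 * X2 := mul_le_mul_of_nonneg_right hk1 hX2
  linarith

theorem ld0_FF_bound (hq : 100 ≤ q) (hs : BgSm g) (hC : 0 < C) (hc : CoefB q g Λ₀ C) (hΛ : Λ₀ ≤ 100 / q) :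
    ∃ K : ℝ, 0 ≤ K ∧ ∀ t ∈ Ico (-Λ₀) 0, ∀ y ∈ Icc (-1 : ℝ) 1, ∀ U : Tri, (∀ j, Sm (U j)) →
      n2 q (slT (FFop q g U) t) y
        ≤ K * (n2t q (slT U t) y + n2 q (slT U t) y) / ((rh2 q t y) ^ 2 * (Th t y) ^ 2) := by
  refine ⟨(24 * q + 160) * (C + C ^ 3) ^ 2, by positivity, ?_⟩
  intro t ht y hy U hU
  have ht0 : t < 0 := ht.2
  have hT : 0 < Th t y := wc_coef_Th_pos ht hy
  have hR : 0 < rh2 q t y := w0_rh2_pos (by linarith) ht0 hy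
  have ha := ld0_ff_coef hq hC hc hc.w1 ht hy
  have hcf : ∀ j k : Fin 3, (j ≠ 2 ∨ k = 2) → _ := fun j k hjk => ld0_ff_coef hq hC hc (hc.cf j k hjk) ht hy
  have hcx : ∀ k : Fin 3, |Xf y * (dT (g.cf q 2 k) (t, y) - muF g (t, y) * g.cf q 2 k (t, y))|
      ≤ (C + C ^ 3) / (rh2 q t y * Th t y) := by
    intro k
    have h := ld0_ff_coef hq hC hc (hc.cfX k) ht hy
    rw [dT_y_mul Xf (hs.smcf q 2 k) ht0 y] at h
    have e : Xf y * dT (g.cf q 2 k) (t, y) - muF g (t, y) * (Xf (t, y).2 * g.cf q 2 k (t, y))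
        = Xf y * (dT (g.cf q 2 k) (t, y) - muF g (t, y) * g.cf q 2 k (t, y)) := by
      show Xf y * dT (g.cf q 2 k) (t, y) - muF g (t, y) * (Xf y * g.cf q 2 k (t, y)) = _
      ring
    rw [e] at h
    exact h
  have hs2 : tt (fun z => (1 - z ^ 2) * slT U t 2 z) y
      = 2 * y * ((1 - y ^ 2) * U 2 (t, y)) - (1 - y ^ 2) ^ 2 * dY (U 2) (t, y) := by
    have hd : HasDerivAt (fun z => (1 - z ^ 2) * slT U t 2 z)
        ((-2 * y) * U 2 (t, y) + (1 - y ^ 2) * dY (U 2) (t, y)) y :=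
      (hasDerivAt_Xf y).mul ((hU 2).hasDerivAt_y ht0 y)
    unfold tt
    rw [hd.deriv]
    ring
  have key := ld0_ff_alg (q := q) (A := (C + C ^ 3) / (rh2 q t y * Th t y)) (y := y)
    (u0 := U 0 (t, y)) (u1 := U 1 (t, y)) (u2 := (1 - y ^ 2) * U 2 (t, y))
    (s0 := tt (slT U t 0) y) (s1 := tt (slT U t 1) y) (s2 := tt (fun z => (1 - z ^ 2) * slT U t 2 z) y)
    hq hy ha (hcf 0 0 (Or.inl (by decide))) (hcf 0 1 (Or.inl (by decide))) (hcf 0 2 (Or.inl (by decide)))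
    (hcf 1 0 (Or.inl (by decide))) (hcf 1 1 (Or.inl (by decide))) (hcf 1 2 (Or.inl (by decide)))
    (hcx 0) (hcx 1) (hcf 2 2 (Or.inr rfl))
  have e0 : slT (FFop q g U) t 0 y = (dT g.w1 (t, y) - muF g (t, y) * g.w1 (t, y)) * (-tt (slT U t 0) y)
      + (dT (g.cf q 0 0) (t, y) - muF g (t, y) * g.cf q 0 0 (t, y)) * U 0 (t, y)
      + (dT (g.cf q 0 1) (t, y) - muF g (t, y) * g.cf q 0 1 (t, y)) * U 1 (t, y)
      + (dT (g.cf q 0 2) (t, y) - muF g (t, y) * g.cf q 0 2 (t, y)) * ((1 - y ^ 2) * U 2 (t, y)) := by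
    show FFop q g U 0 (t, y) = _
    unfold FFop tt
    rw [Fin.sum_univ_three]
    have : deriv (slT U t 0) y = dY (U 0) (t, y) := rfl
    rw [this]
    simp [facJ, Xf]
    ring
  have e1 : slT (FFop q g U) t 1 y = (dT g.w1 (t, y) - muF g (t, y) * g.w1 (t, y)) * (-tt (slT U t 1) y)
      + (dT (g.cf q 1 0) (t, y) - muF g (t, y) * g.cf q 1 0 (t, y)) * U 0 (t, y)
      + (dT (g.cf q 1 1) (t, y) - muF g (t, y) * g.cf q 1 1 (t, y)) * U 1 (t, y)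
      + (dT (g.cf q 1 2) (t, y) - muF g (t, y) * g.cf q 1 2 (t, y)) * ((1 - y ^ 2) * U 2 (t, y)) := by
    show FFop q g U 1 (t, y) = _
    unfold FFop tt
    rw [Fin.sum_univ_three]
    have : deriv (slT U t 1) y = dY (U 1) (t, y) := rfl
    rw [this]
    simp [facJ, Xf]
    ring
  have e2 : (1 - y ^ 2) * slT (FFop q g U) t 2 y = (dT g.w1 (t, y) - muF g (t, y) * g.w1 (t, y))
        * (2 * y * ((1 - y ^ 2) * U 2 (t, y)) - tt (fun z => (1 - z ^ 2) * slT U t 2 z) y)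
      + Xf y * (dT (g.cf q 2 0) (t, y) - muF g (t, y) * g.cf q 2 0 (t, y)) * U 0 (t, y)
      + Xf y * (dT (g.cf q 2 1) (t, y) - muF g (t, y) * g.cf q 2 1 (t, y)) * U 1 (t, y)
      + (dT (g.cf q 2 2) (t, y) - muF g (t, y) * g.cf q 2 2 (t, y)) * ((1 - y ^ 2) * U 2 (t, y)) := by
    rw [hs2]
    show (1 - y ^ 2) * FFop q g U 2 (t, y) = _
    unfold FFop
    rw [Fin.sum_univ_three]
    simp [facJ, Xf]
    ring
  have hn : n2 q (slT (FFop q g U) t) y = (q + 1) * (slT (FFop q g U) t 0 y) ^ 2 + 2 * (slT (FFop q g U) t 1 y) ^ 2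
      + q / (q + 1) * ((1 - y ^ 2) * slT (FFop q g U) t 2 y) ^ 2 := rfl
  rw [hn, e0, e1, e2]
  refine key.trans (le_of_eq ?_)
  have hn2 : n2 q (slT U t) y = (q + 1) * (U 0 (t, y)) ^ 2 + 2 * (U 1 (t, y)) ^ 2
      + q / (q + 1) * ((1 - y ^ 2) * U 2 (t, y)) ^ 2 := rfl
  have hn2t : n2t q (slT U t) y = (q + 1) * (tt (slT U t 0) y) ^ 2 + 2 * (tt (slT U t 1) y) ^ 2
      + q / (q + 1) * (tt (fun z => (1 - z ^ 2) * slT U t 2 z) y) ^ 2 := rfl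
  rw [hn2, hn2t, div_pow, mul_pow]
  ring

theorem ld0_tt_congr_Icc {f f' : ℝ → ℝ} (h : ∀ y ∈ Icc (-1 : ℝ) 1, f y = f' y) :
    ∀ y ∈ Icc (-1 : ℝ) 1, tt f y = tt f' y := by
  intro y hy
  rcases eq_or_lt_of_le hy.1 with h1 | h1
  · subst h1; simp [tt]
  rcases eq_or_lt_of_le hy.2 with h2 | h2
  · subst h2; simp [tt]
  · apply tt_congr
    filter_upwards [Ioo_mem_nhds h1 h2] with z hz
    exact h z (Ioo_subset_Icc_self hz)

theorem ld0_n2_congr_Icc (q : ℝ) {u u' : Fin 3 → ℝ → ℝ} (h : ∀ j, ∀ y ∈ Icc (-1 : ℝ) 1, u j y = u' j y) :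
    ∀ y ∈ Icc (-1 : ℝ) 1, n2 q u y = n2 q u' y := by
  intro y hy
  simp only [n2, h _ y hy]

theorem ld0_n2t_congr_Icc (q : ℝ) {u u' : Fin 3 → ℝ → ℝ} (h : ∀ j, ∀ y ∈ Icc (-1 : ℝ) 1, u j y = u' j y) :
    ∀ y ∈ Icc (-1 : ℝ) 1, n2t q u y = n2t q u' y := by
  intro y hy
  have h2 : tt (fun z => (1 - z ^ 2) * u 2 z) y = tt (fun z => (1 - z ^ 2) * u' 2 z) y :=
    ld0_tt_congr_Icc (fun z hz => by simp only [h 2 z hz]) y hy
  simp only [n2t, ld0_tt_congr_Icc (h 0) y hy, ld0_tt_congr_Icc (h 1) y hy, h2]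

theorem ld0_En_congr (q : ℝ) (V : ℝ → ℝ) {u u' : Fin 3 → ℝ → ℝ} (h : ∀ j, ∀ y ∈ Icc (-1 : ℝ) 1, u j y = u' j y) :
    En q V u = En q V u' := by
  unfold En
  exact ii_congr (fun y hy => by rw [ld0_n2_congr_Icc q h y hy])

theorem ld0_Di_congr (q : ℝ) (V : ℝ → ℝ) {u u' : Fin 3 → ℝ → ℝ} (h : ∀ j, ∀ y ∈ Icc (-1 : ℝ) 1, u j y = u' j y) :
    Di q V u = Di q V u' := by
  unfold Di
  exact ii_congr (fun y hy => by rw [ld0_n2_congr_Icc q h y hy, ld0_n2t_congr_Icc q h y hy])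

theorem ld0_lop_congr (q : ℝ) (hs : BgSm g) (hU : ∀ j, Sm (U j)) (hW : ∀ j, Sm (W j)) (ht : t < 0)
    (h : ∀ j, ∀ y ∈ Icc (-1 : ℝ) 1, U j (t, y) = W j (t, y)) :
    ∀ j, ∀ y ∈ Icc (-1 : ℝ) 1, Lop q g U j (t, y) = Lop q g W j (t, y) := by
  intro j
  have hcU : Continuous (sl (Lop q g U j) t) := ((sm_Lop q hs hU j).sl ht).continuous
  have hcW : Continuous (sl (Lop q g W j) t) := ((sm_Lop q hs hW j).sl ht).continuous
  have hin : EqOn (sl (Lop q g U j) t) (sl (Lop q g W j) t) (Ioo (-1 : ℝ) 1) := by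
    intro y hy
    have hev : ∀ k, (fun z => U k (t, z)) =ᶠ[𝓝 y] (fun z => W k (t, z)) := by
      intro k
      filter_upwards [Ioo_mem_nhds hy.1 hy.2] with z hz
      exact h k z (Ioo_subset_Icc_self hz)
    have hd1 : (fun z => dY (U j) (t, z)) =ᶠ[𝓝 y] (fun z => dY (W j) (t, z)) := (hev j).deriv
    have e1 : dY (U j) (t, y) = dY (W j) (t, y) := hd1.eq_of_nhds
    have e2 : dY (dY (U j)) (t, y) = dY (dY (W j)) (t, y) := hd1.deriv_eq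
    have e0 : ∀ k, U k (t, y) = W k (t, y) := fun k => h k y (Ioo_subset_Icc_self hy)
    simp only [sl, Lop, e1, e2, e0]
  have hcl := hin.closure hcU hcW
  rw [closure_Ioo (by norm_num : (-1 : ℝ) ≠ 1)] at hcl
  exact fun y hy => hcl hy

end

end Claimed.Agent.R324.Core
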