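/-
Row 324 (S0582), PDE core, module LD (architect helper325).   Blueprint 7.4, tags LD4, LD5 (static part).      FILE LD0/Coer:  energy identity + pointwise coercivity (`CoerL`, Core/Bgd.lean).
   `g` = ANY smooth background with `CoerL q g a M e` and `CoefB q g Λ₀ C`  (it is applied to `bgR q g₀`).       `V = wL a M q Γ t`,   `u = uV (slT U t)`,   `F = dfL q g U`.
* `ld0_coer`.   Let `c₀ ≥ 0`.   `CoerL` with `c := c₀` gives `Γ₀`;  for `Γ ≥ Γ₀` it gives `Kc, Λ_c`.    `Λ₁ := min Λ₀ Λ_c`.    E' := the right hand side of `ld0_energy` with `Vp := fun p => wL a M q Γ p.1 p.2` (`smS_wL`; `sl Vp s = wL a M q Γ s` and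
   `dT Vp (t,y) = deriv (fun s => wL a M q Γ s y) t` by `rfl`).      POINTWISE (`CoerL` with `ξ := fun i => uV (slT U t) i y`, `nk q ξ = n2 q (slT U t) y`: `n2_eq_nk`):
        `(X ∂_t V + 2 zzF) n2 + c₀ X |∂_t Z| V n2 + 2 V quadM(u) ≤ -(q/4) V n2 + Kc Λ^e X wH n2`.
   Integrate (`ii_mono`, `ii_add`, `ii_const_mul`; all integrands are continuous on `[-1,1]`: `SmI.continuousOn`; `zzF q g V t` is `SmI` (`SmI.ttp`); `|∂_t Z|`: `ContinuousOn.abs`).     `-2 𝕀[V Z n2t] ≤ -(2/C) 𝕀[V n2t]` (`hc.Zlow`, `V > 0`, `n2t ≥ 0`).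
        `E' + (q/4) 𝕀[V n2] + (2/C) 𝕀[V n2t] + c₀ 𝕀[X |∂_t Z| V n2] ≤ Kc Λ^e En(wH)(u) + 2 𝕀[X V ipK(u,F)]`.
   `Di = 𝕀[V (n2t + q n2)]`:   `c := min (1/4) (2/C)`,   `K := max Kc 0`  (`En q (wH ..) u ≥ 0`, `Λ^e ≥ 0`).
* `ld0_le0`.   `ld0_coer` with `c₀ = 0`;    `2 X V |ipK(u,F)| ≤ 2 X V √(n2 u) √(n2 F) ≤ (c q/2) V n2(u) + (2/(c q)) X² V n2(F)`  (`ipK_abs_le`, `n2_eq_nk`);   `(c q/2) 𝕀[V n2(u)] ≤ (c/2) Di`.
-/
import Claimed.Agent.R324.Core.LD0.Energy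
import Claimed.Agent.R324.Core.LD0.Comm

set_option autoImplicit false

namespace Claimed.Agent.R324.Core

open Set Filter Topology MeasureTheory
open scoped ContDiff

noncomputable section

variable {q Λ₀ C : ℝ} {g : Bg}

/-- **coercive energy inequality** (the forcing term is kept). -/
theorem ld0_coer (hq : 100 ≤ q) (hs : BgSm g) (hC : 0 < C) (hΛ0 : 0 < Λ₀) (hc : CoefB q g Λ₀ C) (a M e : ℕ)
    (hco : CoerL q g a M e) (c₀ : ℝ) (hc₀ : 0 ≤ c₀) :
    ∃ Γ₀ : ℝ, 0 ≤ Γ₀ ∧ ∀ Γ : ℝ, Γ₀ ≤ Γ → ∃ K Λ₁ : ℝ, 0 ≤ K ∧ 0 < Λ₁ ∧ Λ₁ ≤ Λ₀ ∧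
      ∀ U : Tri, (∀ j, Sm (U j)) → ∀ t ∈ Ico (-Λ₁) 0, ∃ E' : ℝ,
        HasDerivAt (fun s => En q (wL a M q Γ s) (slT U s)) E' t ∧
        E' + min (1 / 4) (2 / C) * Di q (wL a M q Γ t) (slT U t)
            + c₀ * II (fun y => Xf y * |dT g.Z (t, y)| * wL a M q Γ t y * n2 q (slT U t) y)
          ≤ K * (-t) ^ e * En q (wH 3 52 q t) (slT U t)
            + 2 * II (fun y => Xf y * wL a M q Γ t y
                * ipK q (fun i => uV (slT U t) i y) (fun i => uV (slT (dfL q g U) t) i y)) := by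
  obtain ⟨Γ₀, hΓ₀, H⟩ := hco c₀
  refine ⟨Γ₀, hΓ₀, fun Γ hΓ => ?_⟩
  obtain ⟨Kc, Λc, hΛc, Hp⟩ := H Γ hΓ
  refine ⟨max Kc 0, min Λ₀ Λc, le_max_right _ _, lt_min hΛ0 hΛc, min_le_left _ _, ?_⟩
  intro U hU t ht
  have ht0 : t < 0 := ht.2
  have htΛ0 : t ∈ Ico (-Λ₀) 0 := ⟨by linarith [ht.1, min_le_left Λ₀ Λc], ht0⟩
  have htΛc : t ∈ Ico (-Λc) 0 := ⟨by linarith [ht.1, min_le_right Λ₀ Λc], ht0⟩
  have hq0 : 0 < q := by linarith
  have hq1 : 1 < q := by linarith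
  have hΓ0 : 0 ≤ Γ := hΓ₀.trans hΓ
  have hV : SmS (fun p => wL a M q Γ p.1 p.2) := smS_wL a M q Γ
  have hE := ld0_energy q hs hV hU ht0
  refine ⟨_, hE, ?_⟩
  have hom : SmI (wL a M q Γ t) := hV.smI ht0
  have hwH : SmI (wH 3 52 q t) := (smS_wH 3 52 q).smI ht0
  have hu : ∀ j, SmI (slT U t j) := smI_slT hU ht0
  have hA : SmI (fun z => wL a M q Γ t z * g.bh q (t, z)) := hom.mul ((hs.smbh q).smI ht0)
  have hB : SmI (fun z => wL a M q Γ t z * g.Z (t, z)) := hom.mul (hs.smZ.smI ht0)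
  have hZ : SmI (zzF q g (wL a M q Γ t) t) := (hB.ttp.ttp.const_mul (1 / 2)).sub (hA.ttp.const_mul (1 / 2))
  have c1 : CI (fun y => (Xf y * dT (fun p => wL a M q Γ p.1 p.2) (t, y) + 2 * zzF q g (wL a M q Γ t) t y)
      * n2 q (slT U t) y) :=
    ((smI_Xf.mul (hV.dT.smI ht0)).add (hZ.const_mul 2)).continuousOn.mul (ci_n2 hu)
  have c2 : CI (fun y => wL a M q Γ t y * quadM q g (t, y) (fun i => uV (slT U t) i y)) :=
    (hom.mul (w2fb_smI_bilM hs ht0 (smI_uV hu) (smI_uV hu))).continuousOn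
  have c3 : CI (fun y => wL a M q Γ t y * g.Z (t, y) * n2t q (slT U t) y) := hB.continuousOn.mul (ci_n2t hu)
  have c4 : CI (fun y => wL a M q Γ t y * (n2t q (slT U t) y + q * n2 q (slT U t) y)) :=
    hom.continuousOn.mul ((ci_n2t hu).add (continuousOn_const.mul (ci_n2 hu)))
  have c5 : CI (fun y => Xf y * |dT g.Z (t, y)| * wL a M q Γ t y * n2 q (slT U t) y) :=
    ((smI_Xf.continuousOn.mul ((hs.smZ.dT.smI ht0).continuousOn.abs)).mul hom.continuousOn).mul (ci_n2 hu)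
  have c6 : CI (fun y => (1 - y ^ 2) * wH 3 52 q t y * n2 q (slT U t) y) :=
    (smI_Xf.mul hwH).continuousOn.mul (ci_n2 hu)
  have lin : ∀ (α β : ℝ) (f1 f2 f3 f4 f5 : ℝ → ℝ), CI f1 → CI f2 → CI f3 → CI f4 → CI f5 →
      II (fun y => f1 y + 2 * f2 y - 2 * f3 y + α * f4 y + β * f5 y)
        = II f1 + 2 * II f2 - 2 * II f3 + α * II f4 + β * II f5 := by
    intro α β f1 f2 f3 f4 f5 h1 h2 h3 h4 h5
    have k2 : CI (fun y => 2 * f2 y) := continuousOn_const.mul h2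
    have k3 : CI (fun y => 2 * f3 y) := continuousOn_const.mul h3
    have k4 : CI (fun y => α * f4 y) := continuousOn_const.mul h4
    have k5 : CI (fun y => β * f5 y) := continuousOn_const.mul h5
    have s1 : CI (fun y => f1 y + 2 * f2 y) := h1.add k2
    have s2 : CI (fun y => f1 y + 2 * f2 y - 2 * f3 y) := s1.sub k3
    have s3 : CI (fun y => f1 y + 2 * f2 y - 2 * f3 y + α * f4 y) := s2.add k4
    rw [ii_add s3 k5, ii_add s2 k4, ii_sub s1 k3,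
      ii_add h1 k2, ii_const_mul, ii_const_mul, ii_const_mul, ii_const_mul]
  have hlin := lin (min (1 / 4) (2 / C)) c₀ _ _ _ _ _ c1 c2 c3 c4 c5
  have hmono := ii_mono (f := fun y => (Xf y * dT (fun p => wL a M q Γ p.1 p.2) (t, y) + 2 * zzF q g (wL a M q Γ t) t y)
        * n2 q (slT U t) y
      + 2 * (wL a M q Γ t y * quadM q g (t, y) (fun i => uV (slT U t) i y))
      - 2 * (wL a M q Γ t y * g.Z (t, y) * n2t q (slT U t) y)
      + min (1 / 4) (2 / C) * (wL a M q Γ t y * (n2t q (slT U t) y + q * n2 q (slT U t) y))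
      + c₀ * (Xf y * |dT g.Z (t, y)| * wL a M q Γ t y * n2 q (slT U t) y))
    (g := fun y => (max Kc 0 * (-t) ^ e) * ((1 - y ^ 2) * wH 3 52 q t y * n2 q (slT U t) y))
    ((((c1.add (continuousOn_const.mul c2)).sub (continuousOn_const.mul c3)).add (continuousOn_const.mul c4)).add
      (continuousOn_const.mul c5)) (continuousOn_const.mul c6) (by
    intro y hy
    have hp := Hp t htΛc y hy (fun i => uV (slT U t) i y)
    rw [← n2_eq_nk] at hp
    have hVpos : 0 < wL a M q Γ t y := w0_wL_pos hq1 hΓ0 ht0 hy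
    have hWpos : 0 < wH 3 52 q t y := w0_wH_pos hq1 ht0 hy
    have hN : 0 ≤ n2 q (slT U t) y := n2_nonneg hq0 _ y
    have hNt : 0 ≤ n2t q (slT U t) y := n2t_nonneg hq0 _ y
    have hX : 0 ≤ Xf y := w0_Xf_nonneg hy
    have hZl : 1 / C ≤ g.Z (t, y) := hc.Zlow t htΛ0 y hy
    have hL : 0 ≤ (-t) ^ e := pow_nonneg (by linarith) e
    have hcm1 : min (1 / 4) (2 / C) ≤ 1 / 4 := min_le_left _ _
    have hcm2 : min (1 / 4) (2 / C) ≤ 2 * g.Z (t, y) := by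
      have : 2 / C = 2 * (1 / C) := by ring
      linarith [min_le_right (1 / 4 : ℝ) (2 / C)]
    have hdT : dT (fun p => wL a M q Γ p.1 p.2) (t, y) = deriv (fun s => wL a M q Γ s y) t := rfl
    have hXf : (1 - y ^ 2) = Xf y := rfl
    rw [hdT, hXf]
    generalize deriv (fun s => wL a M q Γ s y) t = dV at *
    generalize zzF q g (wL a M q Γ t) t y = zz at *
    generalize quadM q g (t, y) (fun i => uV (slT U t) i y) = Qd at *
    generalize n2 q (slT U t) y = N at *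
    generalize n2t q (slT U t) y = Nt at *
    generalize wL a M q Γ t y = Vy at *
    generalize wH 3 52 q t y = W at *
    generalize |dT g.Z (t, y)| = D at *
    generalize g.Z (t, y) = Zy at *
    generalize Xf y = Xy at *
    generalize (-t) ^ e = L at *
    generalize min (1 / 4) (2 / C) = cm at *
    have h1 : cm * (Vy * Nt) ≤ 2 * Zy * (Vy * Nt) := mul_le_mul_of_nonneg_right hcm2 (by positivity)
    have h2 : cm * (q * (Vy * N)) ≤ 1 / 4 * (q * (Vy * N)) := mul_le_mul_of_nonneg_right hcm1 (by positivity)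
    have h3 : Kc * (L * Xy * W * N) ≤ max Kc 0 * (L * Xy * W * N) :=
      mul_le_mul_of_nonneg_right (le_max_left _ _) (by positivity)
    generalize max Kc 0 = K at *
    nlinarith [h1, h2, h3, hp])
  rw [hlin, ii_const_mul] at hmono
  have hDi : Di q (wL a M q Γ t) (slT U t)
      = II (fun y => wL a M q Γ t y * (n2t q (slT U t) y + q * n2 q (slT U t) y)) := rfl
  have hEn : En q (wH 3 52 q t) (slT U t) = II (fun y => (1 - y ^ 2) * wH 3 52 q t y * n2 q (slT U t) y) := rfl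
  rw [hDi, hEn]
  have hmono' : II (fun y => (Xf y * dT (fun p => wL a M q Γ p.1 p.2) (t, y)
          + 2 * zzF q g (sl (fun p => wL a M q Γ p.1 p.2) t) t y) * n2 q (slT U t) y)
        + 2 * II (fun y => wL a M q Γ t y * quadM q g (t, y) (fun i => uV (slT U t) i y))
        - 2 * II (fun y => wL a M q Γ t y * g.Z (t, y) * n2t q (slT U t) y)
        + min (1 / 4) (2 / C) * II (fun y => wL a M q Γ t y * (n2t q (slT U t) y + q * n2 q (slT U t) y))
        + c₀ * II (fun y => Xf y * |dT g.Z (t, y)| * wL a M q Γ t y * n2 q (slT U t) y)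
      ≤ max Kc 0 * (-t) ^ e * II (fun y => (1 - y ^ 2) * wH 3 52 q t y * n2 q (slT U t) y) := hmono
  linarith [hmono']

/-- **(LE0)** in differential form, general `(a, M, e)`. -/
theorem ld0_le0 (hq : 100 ≤ q) (hs : BgSm g) (hC : 0 < C) (hΛ0 : 0 < Λ₀) (hc : CoefB q g Λ₀ C) (a M e : ℕ)
    (hco : CoerL q g a M e) :
    ∃ Γ₀ : ℝ, 0 ≤ Γ₀ ∧ ∀ Γ : ℝ, Γ₀ ≤ Γ → ∃ c K Λ₁ : ℝ, 0 < c ∧ 0 ≤ K ∧ 0 < Λ₁ ∧ Λ₁ ≤ Λ₀ ∧
      ∀ U : Tri, (∀ j, Sm (U j)) → ∀ t ∈ Ico (-Λ₁) 0, ∃ E' : ℝ,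
        HasDerivAt (fun s => En q (wL a M q Γ s) (slT U s)) E' t ∧
        E' + c * Di q (wL a M q Γ t) (slT U t)
          ≤ K * (-t) ^ e * En q (wH 3 52 q t) (slT U t)
            + K * II (fun y => Xf y ^ 2 * wL a M q Γ t y * n2 q (slT (dfL q g U) t) y) := by
  obtain ⟨Γ₀, hΓ₀, H⟩ := ld0_coer hq hs hC hΛ0 hc a M e hco 0 le_rfl
  refine ⟨Γ₀, hΓ₀, fun Γ hΓ => ?_⟩
  obtain ⟨K0, Λ₁, hK0, hΛ₁, hΛ₁₀, H1⟩ := H Γ hΓ
  have hq0 : 0 < q := by linarith
  have hq1 : 1 < q := by linarith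
  have hΓ0 : 0 ≤ Γ := hΓ₀.trans hΓ
  obtain ⟨cm, hcm⟩ : ∃ cm : ℝ, cm = min (1 / 4) (2 / C) := ⟨_, rfl⟩
  have hcm0 : 0 < cm := by
    rw [hcm]
    exact lt_min (by norm_num) (by positivity)
  rw [← hcm] at H1
  refine ⟨cm / 2, max K0 (2 / (cm * q)), Λ₁, by positivity, le_max_of_le_left hK0, hΛ₁, hΛ₁₀, ?_⟩
  intro U hU t ht
  obtain ⟨E', hE', hin⟩ := H1 U hU t ht
  refine ⟨E', hE', ?_⟩
  have ht0 : t < 0 := ht.2
  have hV : SmS (fun p => wL a M q Γ p.1 p.2) := smS_wL a M q Γ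
  have hom : SmI (wL a M q Γ t) := hV.smI ht0
  have hwH : SmI (wH 3 52 q t) := (smS_wH 3 52 q).smI ht0
  have hu : ∀ j, SmI (slT U t j) := smI_slT hU ht0
  have hdf : ∀ j, Sm (dfL q g U j) := fun j => (hU j).dT.sub (sm_Lop q hs hU j)
  have hD : ∀ j, SmI (slT (dfL q g U) t j) := smI_slT hdf ht0
  have c4 : CI (fun y => wL a M q Γ t y * (n2t q (slT U t) y + q * n2 q (slT U t) y)) :=
    hom.continuousOn.mul ((ci_n2t hu).add (continuousOn_const.mul (ci_n2 hu)))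
  have c7 : CI (fun y => Xf y * wL a M q Γ t y
      * ipK q (fun i => uV (slT U t) i y) (fun i => uV (slT (dfL q g U) t) i y)) :=
    ((smI_Xf.mul hom).mul (w2fb_smI_ipK (smI_uV hu) (smI_uV hD))).continuousOn
  have c8 : CI (fun y => Xf y ^ 2 * wL a M q Γ t y * n2 q (slT (dfL q g U) t) y) :=
    ((smI_Xf.pow 2).mul hom).continuousOn.mul (ci_n2 hD)
  have k4 : CI (fun y => cm / 2 * (wL a M q Γ t y * (n2t q (slT U t) y + q * n2 q (slT U t) y))) :=
    continuousOn_const.mul c4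
  have k8 : CI (fun y => 2 / (cm * q) * (Xf y ^ 2 * wL a M q Γ t y * n2 q (slT (dfL q g U) t) y)) :=
    continuousOn_const.mul c8
  have k7 : CI (fun y => 2 * (Xf y * wL a M q Γ t y
      * ipK q (fun i => uV (slT U t) i y) (fun i => uV (slT (dfL q g U) t) i y))) := continuousOn_const.mul c7
  have k48 : CI (fun y => cm / 2 * (wL a M q Γ t y * (n2t q (slT U t) y + q * n2 q (slT U t) y))
      + 2 / (cm * q) * (Xf y ^ 2 * wL a M q Γ t y * n2 q (slT (dfL q g U) t) y)) := k4.add k8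
  have hmono := ii_mono k7 k48 (by
    intro y hy
    have hVpos : 0 < wL a M q Γ t y := w0_wL_pos hq1 hΓ0 ht0 hy
    have hNt : 0 ≤ n2t q (slT U t) y := n2t_nonneg hq0 _ y
    have hX : 0 ≤ Xf y := w0_Xf_nonneg hy
    have hip := ipK_abs_le hq0 (fun i => uV (slT U t) i y) (fun i => uV (slT (dfL q g U) t) i y)
    rw [← n2_eq_nk, ← n2_eq_nk] at hip
    have hN : 0 ≤ n2 q (slT U t) y := n2_nonneg hq0 _ y
    have hNF : 0 ≤ n2 q (slT (dfL q g U) t) y := n2_nonneg hq0 _ y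
    have hsa := Real.sq_sqrt hN
    have hsb := Real.sq_sqrt hNF
    have hsa0 := Real.sqrt_nonneg (n2 q (slT U t) y)
    have hsb0 := Real.sqrt_nonneg (n2 q (slT (dfL q g U) t) y)
    rw [← hsa, ← hsb]
    generalize Real.sqrt (n2 q (slT U t) y) = sa at *
    generalize Real.sqrt (n2 q (slT (dfL q g U) t) y) = sb at *
    generalize ipK q (fun i => uV (slT U t) i y) (fun i => uV (slT (dfL q g U) t) i y) = ip at *
    generalize n2t q (slT U t) y = Nt at *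
    generalize wL a M q Γ t y = Vy at *
    generalize Xf y = Xy at *
    have hip' : ip ≤ sa * sb := (le_abs_self _).trans hip
    have key : 2 * (Xy * sa * sb) ≤ cm * q / 2 * sa ^ 2 + 2 / (cm * q) * (Xy ^ 2 * sb ^ 2) := by
      rw [← sub_nonneg]
      have : cm * q / 2 * sa ^ 2 + 2 / (cm * q) * (Xy ^ 2 * sb ^ 2) - 2 * (Xy * sa * sb)
          = (cm * q / 2 * sa - Xy * sb) ^ 2 / (cm * q / 2) := by
        field_simp
        ring
      rw [this]
      positivity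
    have h1 : 2 * (Xy * Vy * ip) ≤ 2 * (Xy * Vy * (sa * sb)) := by
      have : Xy * Vy * ip ≤ Xy * Vy * (sa * sb) := mul_le_mul_of_nonneg_left hip' (by positivity)
      linarith
    have h2 : Vy * (2 * (Xy * sa * sb)) ≤ Vy * (cm * q / 2 * sa ^ 2 + 2 / (cm * q) * (Xy ^ 2 * sb ^ 2)) :=
      mul_le_mul_of_nonneg_left key hVpos.le
    have h3 : 0 ≤ cm / 2 * (Vy * Nt) := by positivity
    generalize 2 / (cm * q) = δ at *
    nlinarith [h1, h2, h3])
  rw [ii_add k4 k8, ii_const_mul, ii_const_mul, ii_const_mul] at hmono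
  have hDi : Di q (wL a M q Γ t) (slT U t)
      = II (fun y => wL a M q Γ t y * (n2t q (slT U t) y + q * n2 q (slT U t) y)) := rfl
  rw [hDi] at hin ⊢
  have hEn0 : 0 ≤ En q (wH 3 52 q t) (slT U t) :=
    ii_nonneg (fun y hy => mul_nonneg (mul_nonneg (w0_Xf_nonneg hy) (w0_wH_pos hq1 ht0 hy).le) (n2_nonneg hq0 _ y))
  have hF0 : 0 ≤ II (fun y => Xf y ^ 2 * wL a M q Γ t y * n2 q (slT (dfL q g U) t) y) :=
    ii_nonneg (fun y hy => mul_nonneg (mul_nonneg (sq_nonneg _) (w0_wL_pos hq1 hΓ0 ht0 hy).le) (n2_nonneg hq0 _ y))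
  have hL : 0 ≤ (-t) ^ e := pow_nonneg (by linarith) e
  have g1 : K0 * (-t) ^ e * En q (wH 3 52 q t) (slT U t)
      ≤ max K0 (2 / (cm * q)) * (-t) ^ e * En q (wH 3 52 q t) (slT U t) :=
    mul_le_mul_of_nonneg_right (mul_le_mul_of_nonneg_right (le_max_left _ _) hL) hEn0
  have g2 : 2 / (cm * q) * II (fun y => Xf y ^ 2 * wL a M q Γ t y * n2 q (slT (dfL q g U) t) y)
      ≤ max K0 (2 / (cm * q)) * II (fun y => Xf y ^ 2 * wL a M q Γ t y * n2 q (slT (dfL q g U) t) y) :=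
    mul_le_mul_of_nonneg_right (le_max_right _ _) hF0
  linarith [hin, hmono, g1, g2]

end

end Claimed.Agent.R324.Core
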