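/-
Row 324 (S0582), PDE core, module LD.   FILE LD0/LE1a:  the four terms of LEVEL ONE (`ld0_le1_t0 .. t4`) and `ld0_le1_aux` (= `ld0_le1` of LD0/LE1.lean).
-/
import Claimed.Agent.R324.Core.LD0.Coer

set_option autoImplicit false

namespace Claimed.Agent.R324.Core

open Set Filter Topology MeasureTheory
open scoped ContDiff

noncomputable section

variable {q Λ₀ C t : ℝ} {g : Bg} {U H : Tri}

/-- decomposition of the forcing term of `v = L U`. -/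
theorem ld0_le1_t0 (q : ℝ) (hs : BgSm g) (hU : ∀ j, Sm (U j)) (ht : t < 0) (y : ℝ) :
    ipK q (fun i => uV (slT (Lop q g U) t) i y) (fun i => uV (slT (dfL q g (Lop q g U)) t) i y)
      = ipK q (fun i => uV (slT (Lop q g U) t) i y) (fun i => uV (slT (Lop q g (dfL q g U)) t) i y)
        + muF g (t, y) * n2 q (slT (Lop q g U) t) y
        + ipK q (fun i => uV (slT (Lop q g U) t) i y) (fun i => uV (slT (FFop q g U) t) i y) := by
  have h0 := ld0_defect_L q hs hU ht y 0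
  have h1 := ld0_defect_L q hs hU ht y 1
  have h2 := ld0_defect_L q hs hU ht y 2
  rw [n2_eq_nk]
  simp only [ipK, nk, Fin.sum_univ_three, uV_zero, uV_one, uV_two, slT]
  rw [h0, h1, h2]
  ring

/-- term (1). -/
theorem ld0_le1_t1 (hq : 100 ≤ q) (hs : BgSm g) (hC : 0 < C) (hc : CoefB q g Λ₀ C) (ht : t ∈ Ico (-Λ₀) 0)
    {V : ℝ → ℝ} (hV : SmI V) (hV0 : ∀ y ∈ Icc (-1 : ℝ) 1, 0 ≤ V y) {k : Fin 3 → ℝ → ℝ} (hk : ∀ j, SmI (k j)) :
    II (fun y => Xf y * V y * (muF g (t, y) * n2 q k y))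
      ≤ C * II (fun y => Xf y * |dT g.Z (t, y)| * V y * n2 q k y) := by
  have ht0 : t < 0 := ht.2
  have hq0 : 0 < q := by linarith
  rw [← ii_const_mul]
  have hmu : SmI (fun y => muF g (t, y)) := (sm_muF hs).smI ht0
  have hdZ : CI (fun y => |dT g.Z (t, y)|) := ((hs.smZ.dT.smI ht0).continuousOn).abs
  refine ii_mono ?_ ?_ (fun y hy => ?_)
  · exact ((smI_Xf.mul hV).continuousOn).mul (hmu.continuousOn.mul (ci_n2 hk))
  · exact continuousOn_const.mul (((smI_Xf.continuousOn.mul hdZ).mul hV.continuousOn).mul (ci_n2 hk))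
  · have h1 := (ld0_mu_bound hC hc ht hy).1
    have h2 : muF g (t, y) ≤ C * |dT g.Z (t, y)| := (le_abs_self _).trans h1
    have h3 : 0 ≤ Xf y * V y * n2 q k y :=
      mul_nonneg (mul_nonneg (w0_Xf_nonneg hy) (hV0 y hy)) (n2_nonneg hq0 _ _)
    nlinarith [mul_le_mul_of_nonneg_left h2 h3]

/-- term (2). -/
theorem ld0_le1_t2 (hq : 100 ≤ q) (hs : BgSm g) (hc : CoefB q g Λ₀ C) (ht : t ∈ Ico (-Λ₀) 0)
    {V : ℝ → ℝ} {CT : ℝ} (hCT : 0 ≤ CT) (hV : TB CT V) {k : Fin 3 → ℝ → ℝ} (hk : ∀ j, SmI (k j)) (hH : ∀ j, Sm (H j)) :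
    |II (fun y => Xf y * V y * ipK q (fun i => uV k i y) (fun i => uV (slT (Lop q g H) t) i y))|
      ≤ (40 + CT + 36 * q) * C * (Real.sqrt (Di q V k) * Real.sqrt (Di q V (slT H t))) := by
  have h0 : ∀ y ∈ Icc (-1 : ℝ) 1, 0 ≤ V y := fun y hy => (hV.pos y hy).le
  refine w2_form_bound (by linarith) hs hc hCT ht hV.sm hV.sm.continuousOn hV.sm.continuousOn h0 h0 ?_ ?_ hk hH
  · intro y hy
    rw [Real.sqrt_mul_self_eq_abs]
  · intro y hy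
    rw [Real.sqrt_mul_self (h0 y hy)]
    exact hV.t1 y hy

/-- term (4): the core. -/
theorem ld0_le1_t4 (hq : 100 ≤ q) (hs : BgSm g) (hc : CoefB q g Λ₀ C) (ht : t ∈ Ico (-Λ₀) 0)
    (M e₁ : ℕ) (he : e₁ + M = 52) {Γ : ℝ} (hΓ : 0 ≤ Γ) {CH : ℝ} (hCH : 0 ≤ CH) (hH : TB CH (wH 3 52 q t))
    (hU : ∀ j, Sm (U j)) :
    (-t) ^ e₁ * En q (wH 3 52 q t) (slT (Lop q g U) t)
      ≤ (40 + CH + 36 * q) * C * (Real.sqrt (Di q (wL 4 M q Γ t) (slT (Lop q g U) t))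
          * Real.sqrt (Di q (wL 2 M q Γ t) (slT U t))) := by
  have ht0 : t < 0 := ht.2
  have hq1 : 1 < q := by linarith
  have hL : 0 ≤ (-t) ^ e₁ := pow_nonneg (by linarith) _
  have e : (-t) ^ e₁ * En q (wH 3 52 q t) (slT (Lop q g U) t)
      = II (fun y => Xf y * ((-t) ^ e₁ * wH 3 52 q t y)
          * ipK q (fun i => uV (slT (Lop q g U) t) i y) (fun i => uV (slT (Lop q g U) t) i y)) := by
    unfold En
    rw [← ii_const_mul]
    refine ii_congr (fun y _ => ?_)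
    rw [ipK_self, ← n2_eq_nk]
    unfold Xf
    ring
  have hV1 : SmI (wL 4 M q Γ t) := (smS_wL 4 M q Γ).smI ht0
  have hV0 : SmI (wL 2 M q Γ t) := (smS_wL 2 M q Γ).smI ht0
  have key : ∀ y ∈ Icc (-1 : ℝ) 1, (-t) ^ e₁ * wH 3 52 q t y
      ≤ Real.sqrt (wL 4 M q Γ t y * wL 2 M q Γ t y) := by
    intro y hy
    have hT := w0_Th_pos ht0 hy
    have hr := w0_rh2_pos hq1 ht0 hy
    have hW := w0_wL_pos (a := 2) (M := M) hq1 hΓ ht0 hy
    have h1 : wL 4 M q Γ t y * wL 2 M q Γ t y = (rh2 q t y * wL 2 M q Γ t y) ^ 2 := by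
      rw [show (4 : ℕ) = 2 + 2 from rfl, w0_wL_add_two]
      ring
    rw [h1, Real.sqrt_sq (by positivity)]
    have h2 : (-t) ^ e₁ ≤ (Th t y) ^ e₁ := pow_le_pow_left₀ (by linarith) (w0_Lam_le_Th hy) _
    have h3 : (-t) ^ e₁ * wH 3 52 q t y ≤ rh2 q t y * wH 2 M q t y := by
      unfold wH
      rw [← he, pow_add]
      have h4 : (-t) ^ e₁ * (rh2 q t y ^ 3 / (Th t y ^ e₁ * Th t y ^ M))
          = ((-t) ^ e₁ / Th t y ^ e₁) * (rh2 q t y * (rh2 q t y ^ 2 / Th t y ^ M)) := by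
        field_simp
      rw [h4]
      exact mul_le_of_le_one_left (by positivity) ((div_le_one (by positivity)).2 h2)
    exact h3.trans (mul_le_mul_of_nonneg_left (w0_wH_le_wL hq1 hΓ ht0 hy) hr.le)
  rw [e]
  refine (le_abs_self _).trans (w2_form_bound (om := fun y => (-t) ^ e₁ * wH 3 52 q t y) (by linarith) hs hc hCH ht
    (hH.sm.const_mul _) hV1.continuousOn hV0.continuousOn (fun y hy => (w0_wL_pos hq1 hΓ ht0 hy).le)
    (fun y hy => (w0_wL_pos hq1 hΓ ht0 hy).le) ?_ ?_ (smI_slT (sm_Lop q hs hU) ht0) hU)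
  · intro y hy
    rw [abs_of_nonneg (mul_nonneg hL (hH.pos y hy).le)]
    exact key y hy
  · intro y hy
    rw [tt_const_mul _ (hH.sm.differentiableAt hy), abs_mul, abs_of_nonneg hL]
    calc (-t) ^ e₁ * |tt (wH 3 52 q t) y| ≤ (-t) ^ e₁ * (CH * wH 3 52 q t y) :=
          mul_le_mul_of_nonneg_left (hH.t1 y hy) hL
      _ = CH * ((-t) ^ e₁ * wH 3 52 q t y) := by ring
      _ ≤ _ := mul_le_mul_of_nonneg_left (key y hy) hCH

/-- term (3), pointwise. -/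
theorem ld0_le1_t3_pt {X V₀ r T A Bf N Nt KF c ip : ℝ} (hq : 100 ≤ q) (hc : 0 < c) (hX0 : 0 ≤ X) (hX : X ≤ 4 / 3 * r)
    (hr : 0 < r) (hrT : r ≤ T) (hV₀ : 0 ≤ V₀) (hA : 0 ≤ A) (hB : 0 ≤ Bf) (hN : 0 ≤ N) (hNt : 0 ≤ Nt) (hKF : 0 ≤ KF)
    (hFF : Bf ≤ KF * (Nt + N) / (r ^ 2 * T ^ 2)) (hip : |ip| ≤ Real.sqrt A * Real.sqrt Bf) {At : ℝ} (hAt : 0 ≤ At) :
    2 * (X * (r ^ 2 * V₀) * ip) ≤ c / 4 * (r ^ 2 * V₀ * (At + q * A)) + 64 * KF / (9 * c) * (V₀ * (Nt + q * N)) := by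
  have hq0 : 0 < q := by linarith
  have hT : 0 < T := hr.trans_le hrT
  set a := Real.sqrt A with ha
  set b := Real.sqrt Bf with hb
  have ha2 : a ^ 2 = A := Real.sq_sqrt hA
  have hb2 : b ^ 2 = Bf := Real.sq_sqrt hB
  have hε : 0 < c * q / 4 := by positivity
  have h1 : 2 * (X * (a * b)) ≤ c * q / 4 * A + X ^ 2 * Bf / (c * q / 4) := by
    rw [← sub_nonneg]
    have h2 : c * q / 4 * A + X ^ 2 * Bf / (c * q / 4) - 2 * (X * (a * b))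
        = (c * q / 4 * a - X * b) ^ 2 / (c * q / 4) := by
      rw [← ha2, ← hb2]
      field_simp
      ring
    rw [h2]
    positivity
  have hS : 0 ≤ KF * (Nt + N) := by positivity
  have hB' : Bf * (r ^ 2 * T ^ 2) ≤ KF * (Nt + N) := (le_div_iff₀ (by positivity)).1 hFF
  have hX2 : X ^ 2 ≤ 16 / 9 * r ^ 2 := by nlinarith
  have hrT2 : r ^ 2 ≤ T ^ 2 := by nlinarith
  have h3 : r ^ 2 * (X ^ 2 * Bf) ≤ 16 / 9 * (KF * (Nt + N)) := by
    calc r ^ 2 * (X ^ 2 * Bf) ≤ r ^ 2 * (16 / 9 * r ^ 2 * Bf) := by gcongr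
      _ = 16 / 9 * (Bf * (r ^ 2 * r ^ 2)) := by ring
      _ ≤ 16 / 9 * (Bf * (r ^ 2 * T ^ 2)) := by gcongr
      _ ≤ 16 / 9 * (KF * (Nt + N)) := by gcongr
  have h4 : ip ≤ a * b := (le_abs_self _).trans hip
  have hrV : 0 ≤ r ^ 2 * V₀ := by positivity
  have h5 : Nt + N ≤ Nt + q * N := by nlinarith
  calc 2 * (X * (r ^ 2 * V₀) * ip) ≤ 2 * (X * (r ^ 2 * V₀) * (a * b)) := by gcongr
    _ = r ^ 2 * V₀ * (2 * (X * (a * b))) := by ring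
    _ ≤ r ^ 2 * V₀ * (c * q / 4 * A + X ^ 2 * Bf / (c * q / 4)) := by gcongr
    _ = c / 4 * (r ^ 2 * V₀ * (q * A)) + 4 / (c * q) * (V₀ * (r ^ 2 * (X ^ 2 * Bf))) := by
        field_simp
    _ ≤ c / 4 * (r ^ 2 * V₀ * (At + q * A)) + 4 / (c * q) * (V₀ * (16 / 9 * (KF * (Nt + N)))) := by
        gcongr
        linarith
    _ = c / 4 * (r ^ 2 * V₀ * (At + q * A)) + 64 * KF / (9 * c) * (V₀ * (Nt + N)) / q := by
        field_simp
        ring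
    _ ≤ c / 4 * (r ^ 2 * V₀ * (At + q * A)) + 64 * KF / (9 * c) * (V₀ * (Nt + q * N)) := by
        have h6 : 64 * KF / (9 * c) * (V₀ * (Nt + N)) / q ≤ 64 * KF / (9 * c) * (V₀ * (Nt + N)) :=
          div_le_self (by positivity) (by linarith)
        have h7 : 64 * KF / (9 * c) * (V₀ * (Nt + N)) ≤ 64 * KF / (9 * c) * (V₀ * (Nt + q * N)) := by gcongr
        linarith

/-- term (3). -/
theorem ld0_le1_t3 (hq : 100 ≤ q) (hs : BgSm g) (hΛ : Λ₀ ≤ 100 / q) (ht : t ∈ Ico (-Λ₀) 0) (M : ℕ) {Γ : ℝ} (hΓ : 0 ≤ Γ)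
    {KF c : ℝ} (hKF : 0 ≤ KF) (hc : 0 < c) (hU : ∀ j, Sm (U j))
    (hFF : ∀ y ∈ Icc (-1 : ℝ) 1, n2 q (slT (FFop q g U) t) y
        ≤ KF * (n2t q (slT U t) y + n2 q (slT U t) y) / ((rh2 q t y) ^ 2 * (Th t y) ^ 2)) :
    2 * II (fun y => Xf y * wL 4 M q Γ t y
        * ipK q (fun i => uV (slT (Lop q g U) t) i y) (fun i => uV (slT (FFop q g U) t) i y))
      ≤ c / 4 * Di q (wL 4 M q Γ t) (slT (Lop q g U) t) + 64 * KF / (9 * c) * Di q (wL 2 M q Γ t) (slT U t) := by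
  have ht0 : t < 0 := ht.2
  have hq1 : 1 < q := by linarith
  have hq0 : 0 < q := by linarith
  have hV1 : SmI (wL 4 M q Γ t) := (smS_wL 4 M q Γ).smI ht0
  have hV0 : SmI (wL 2 M q Γ t) := (smS_wL 2 M q Γ).smI ht0
  have hv : ∀ j, SmI (slT (Lop q g U) t j) := smI_slT (sm_Lop q hs hU) ht0
  have hu : ∀ j, SmI (slT U t j) := smI_slT hU ht0
  have hf : ∀ j, SmI (slT (FFop q g U) t j) := smI_slT (sm_FFop q hs hU) ht0
  unfold Di
  rw [← ii_const_mul, ← ii_const_mul, ← ii_const_mul, ← ii_add]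
  · refine ii_mono ?_ ?_ (fun y hy => ?_)
    · exact continuousOn_const.mul (((smI_Xf.mul hV1).mul (w2fb_smI_ipK (smI_uV hv) (smI_uV hf))).continuousOn)
    · exact (continuousOn_const.mul (hV1.continuousOn.mul ((ci_n2t hv).add (continuousOn_const.mul (ci_n2 hv))))).add
        (continuousOn_const.mul (hV0.continuousOn.mul ((ci_n2t hu).add (continuousOn_const.mul (ci_n2 hu)))))
    · have h1 : wL 4 M q Γ t y = rh2 q t y ^ 2 * wL 2 M q Γ t y := by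
        rw [show (4 : ℕ) = 2 + 2 from rfl, w0_wL_add_two]
      rw [h1]
      refine ld0_le1_t3_pt (T := Th t y) (Bf := n2 q (slT (FFop q g U) t) y) hq hc (w0_Xf_nonneg hy)
        (w0_Xf_le_rh2 hq1 ht0 hy) (w0_rh2_pos hq1 ht0 hy) (w0_rh2_le_Th hq ht0 (by linarith [ht.1]) y)
        (w0_wL_pos hq1 hΓ ht0 hy).le (n2_nonneg hq0 _ _) (n2_nonneg hq0 _ _) (n2_nonneg hq0 _ _) (n2t_nonneg hq0 _ _)
        hKF (hFF y hy) ?_ (n2t_nonneg hq0 _ _)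
      rw [n2_eq_nk, n2_eq_nk]
      exact ipK_abs_le hq0 _ _
  · exact continuousOn_const.mul (hV1.continuousOn.mul ((ci_n2t hv).add (continuousOn_const.mul (ci_n2 hv))))
  · exact continuousOn_const.mul (hV0.continuousOn.mul ((ci_n2t hu).add (continuousOn_const.mul (ci_n2 hu))))

/-- `x y ≤ (c/4) x² + y²/c`. -/
theorem ld0_le1_amgm {c K a b : ℝ} (hc : 0 < c) (ha : 0 ≤ a) (hb : 0 ≤ b) :
    K * (Real.sqrt a * Real.sqrt b) ≤ c / 4 * a + K ^ 2 / c * b := by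
  have ha2 : Real.sqrt a ^ 2 = a := Real.sq_sqrt ha
  have hb2 : Real.sqrt b ^ 2 = b := Real.sq_sqrt hb
  rw [← sub_nonneg]
  have h : c / 4 * a + K ^ 2 / c * b - K * (Real.sqrt a * Real.sqrt b)
      = (c / 2 * Real.sqrt a - K * Real.sqrt b) ^ 2 / c := by
    nth_rewrite 1 [← ha2]
    nth_rewrite 1 [← hb2]
    field_simp
    ring
  rw [h]
  positivity

/-- **(LE1)** in differential form. -/
theorem ld0_le1_aux (hq : 100 ≤ q) (hs : BgSm g) (hC : 1 ≤ C) (hΛ0 : 0 < Λ₀) (hΛ : Λ₀ ≤ 100 / q) (hc : CoefB q g Λ₀ C)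
    (M e₁ : ℕ) (he : e₁ + M = 52) (hco : CoerL q g 4 M e₁) :
    ∃ Γ₀ : ℝ, 0 ≤ Γ₀ ∧ ∀ Γ : ℝ, Γ₀ ≤ Γ → ∃ c K Λ₁ : ℝ, 0 < c ∧ 0 ≤ K ∧ 0 < Λ₁ ∧ Λ₁ ≤ Λ₀ ∧
      ∀ U : Tri, (∀ j, Sm (U j)) → ∀ t ∈ Ico (-Λ₁) 0, ∃ E' : ℝ,
        HasDerivAt (fun s => En q (wL 4 M q Γ s) (slT (Lop q g U) s)) E' t ∧
        E' + c * Di q (wL 4 M q Γ t) (slT (Lop q g U) t)
          ≤ K * Di q (wL 2 M q Γ t) (slT U t) + K * Di q (wL 4 M q Γ t) (slT (dfL q g U) t) := by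
  have hC0 : 0 < C := by linarith
  have hq1 : 1 < q := by linarith
  have hq0 : 0 < q := by linarith
  obtain ⟨Γ₀, hΓ₀, h⟩ := ld0_coer hq hs hC0 hΛ0 hc 4 M e₁ hco (2 * C) (by positivity)
  obtain ⟨CT, hCT, hTB⟩ := w0_tb_wL 4 M
  obtain ⟨CH, hCH, hTBH⟩ := w0_tb_wH 3 52
  obtain ⟨KF, hKF, hFF⟩ := ld0_FF_bound hq hs hC0 hc hΛ
  refine ⟨Γ₀, hΓ₀, fun Γ hΓ => ?_⟩
  have hΓ0 : 0 ≤ Γ := hΓ₀.trans hΓ
  obtain ⟨K, Λ₁, hK, hΛ₁, hΛ₁', h'⟩ := h Γ hΓ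
  set c₁ := min (1 / 4) (2 / C) with hc₁
  have hc₁0 : 0 < c₁ := lt_min (by norm_num) (by positivity)
  set K₂ := (40 + CT + 36 * q) * C with hK₂
  set K₃ := (40 + CH + 36 * q) * C with hK₃
  have hK₃0 : 0 ≤ K₃ := by positivity
  have P1 : 0 ≤ (K * K₃) ^ 2 / c₁ := by positivity
  have P2 : 0 ≤ 64 * KF / (9 * c₁) := by positivity
  have P3 : 0 ≤ (2 * K₂) ^ 2 / c₁ := by positivity
  have P0 : 0 < c₁ / 4 := by positivity
  refine ⟨c₁ / 4, (K * K₃) ^ 2 / c₁ + 64 * KF / (9 * c₁) + (2 * K₂) ^ 2 / c₁, Λ₁, P0, by linarith, hΛ₁, hΛ₁',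
    fun U hU t ht => ?_⟩
  have ht0 : t < 0 := ht.2
  have ht' : t ∈ Ico (-Λ₀) 0 := ⟨by linarith [ht.1], ht.2⟩
  have hvS : ∀ j, Sm (Lop q g U j) := sm_Lop q hs hU
  have hFS : ∀ j, Sm (dfL q g U j) := sm_dfL q hs hU
  obtain ⟨E', hE', hin⟩ := h' (Lop q g U) hvS t ht
  refine ⟨E', hE', ?_⟩
  have hV1 : SmI (wL 4 M q Γ t) := (smS_wL 4 M q Γ).smI ht0
  have hV1p : ∀ y ∈ Icc (-1 : ℝ) 1, 0 ≤ wL 4 M q Γ t y := fun y hy => (w0_wL_pos hq1 hΓ0 ht0 hy).le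
  have hV0p : ∀ y ∈ Icc (-1 : ℝ) 1, 0 ≤ wL 2 M q Γ t y := fun y hy => (w0_wL_pos hq1 hΓ0 ht0 hy).le
  have hv : ∀ j, SmI (slT (Lop q g U) t j) := smI_slT hvS ht0
  have hLF : ∀ j, SmI (slT (Lop q g (dfL q g U)) t j) := smI_slT (sm_Lop q hs hFS) ht0
  have hf : ∀ j, SmI (slT (FFop q g U) t j) := smI_slT (sm_FFop q hs hU) ht0
  have hmu : SmI (fun y => muF g (t, y)) := (sm_muF hs).smI ht0
  -- the three parts of the forcing term
  have c2 : CI (fun y => Xf y * wL 4 M q Γ t y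
      * ipK q (fun i => uV (slT (Lop q g U) t) i y) (fun i => uV (slT (Lop q g (dfL q g U)) t) i y)) :=
    ((smI_Xf.mul hV1).mul (w2fb_smI_ipK (smI_uV hv) (smI_uV hLF))).continuousOn
  have c1 : CI (fun y => Xf y * wL 4 M q Γ t y * (muF g (t, y) * n2 q (slT (Lop q g U) t) y)) :=
    ((smI_Xf.mul hV1).continuousOn).mul (hmu.continuousOn.mul (ci_n2 hv))
  have c3 : CI (fun y => Xf y * wL 4 M q Γ t y
      * ipK q (fun i => uV (slT (Lop q g U) t) i y) (fun i => uV (slT (FFop q g U) t) i y)) :=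
    ((smI_Xf.mul hV1).mul (w2fb_smI_ipK (smI_uV hv) (smI_uV hf))).continuousOn
  have split : II (fun y => Xf y * wL 4 M q Γ t y
        * ipK q (fun i => uV (slT (Lop q g U) t) i y) (fun i => uV (slT (dfL q g (Lop q g U)) t) i y))
      = II (fun y => Xf y * wL 4 M q Γ t y
          * ipK q (fun i => uV (slT (Lop q g U) t) i y) (fun i => uV (slT (Lop q g (dfL q g U)) t) i y))
        + II (fun y => Xf y * wL 4 M q Γ t y * (muF g (t, y) * n2 q (slT (Lop q g U) t) y))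
        + II (fun y => Xf y * wL 4 M q Γ t y
          * ipK q (fun i => uV (slT (Lop q g U) t) i y) (fun i => uV (slT (FFop q g U) t) i y)) := by
    have c21 : CI (fun y => Xf y * wL 4 M q Γ t y
          * ipK q (fun i => uV (slT (Lop q g U) t) i y) (fun i => uV (slT (Lop q g (dfL q g U)) t) i y)
        + Xf y * wL 4 M q Γ t y * (muF g (t, y) * n2 q (slT (Lop q g U) t) y)) := c2.add c1
    rw [← ii_add c2 c1, ← ii_add c21 c3]
    refine ii_congr (fun y _ => ?_)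
    rw [ld0_le1_t0 q hs hU ht0 y]
    ring
  rw [split] at hin
  have T1 := ld0_le1_t1 hq hs hC0 hc ht' hV1 hV1p hv
  have T2 := (le_abs_self _).trans (ld0_le1_t2 hq hs hc ht' hCT (hTB q Γ t hq1 hΓ0 ht0) hv hFS)
  have T3 := ld0_le1_t3 hq hs hΛ ht' M hΓ0 hKF hc₁0 hU (fun y hy => hFF t ht' y hy U hU)
  have T4 := ld0_le1_t4 hq hs hc ht' M e₁ he hΓ0 hCH (hTBH q t hq1 ht0) hU
  have D1 : 0 ≤ Di q (wL 4 M q Γ t) (slT (Lop q g U) t) := w2_Di_nonneg (by linarith) hV1p _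
  have D0 : 0 ≤ Di q (wL 2 M q Γ t) (slT U t) := w2_Di_nonneg (by linarith) hV0p _
  have DF : 0 ≤ Di q (wL 4 M q Γ t) (slT (dfL q g U) t) := w2_Di_nonneg (by linarith) hV1p _
  have A2 := ld0_le1_amgm (K := 2 * K₂) hc₁0 D1 DF
  have A4 := ld0_le1_amgm (K := K * K₃) hc₁0 D1 D0
  have T4' : K * (-t) ^ e₁ * En q (wH 3 52 q t) (slT (Lop q g U) t)
      ≤ K * K₃ * (Real.sqrt (Di q (wL 4 M q Γ t) (slT (Lop q g U) t)) * Real.sqrt (Di q (wL 2 M q Γ t) (slT U t))) := by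
    have := mul_le_mul_of_nonneg_left T4 hK
    calc _ = K * ((-t) ^ e₁ * En q (wH 3 52 q t) (slT (Lop q g U) t)) := by ring
      _ ≤ _ := this
      _ = _ := by ring
  nlinarith [mul_nonneg P1 DF, mul_nonneg P2 DF, mul_nonneg P3 D0]

end

end Claimed.Agent.R324.Core
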