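/-
Row 324 (S0582), PDE core, module LD (architect helper325).   Blueprint 7.4, tag LD5 (static part).      FILE LD0/LE1:  LEVEL ONE, and the two level estimate.
   `g` = any smooth background (applied to `bgR q g₀`),  `V₀ = wL 2 M q Γ t`,  `V₁ = wL 4 M q Γ t = r̂⁴ V₀` (`w0_wL_add_two`),   `v = Lop q g U`,  `F = dfL q g U`,   `D₀ = Di q V₀ (slT U t)`,  `D₁ = Di q V₁ (slT v t)`,  `D_F = Di q V₁ (slT F t)`.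
* `ld0_le1`.   `ld0_coer` (`a = 4`, `c₀ := 2 C`) applied to the smooth triple `v` (`sm_Lop`):   with `c = min (1/4) (2/C)`
        `E' + c D₁ + 2C 𝕀[X |∂_t Z| V₁ n2(v)] ≤ K Λ^{e₁} En(wH 3 52)(v) + 2 𝕀[X V₁ ipK(v, dfL v)]`,          `dfL v = L F + μ v + FF U`   (`ld0_defect_L`; `uV`, `ipK` linear).
   (1) `2 𝕀[X V₁ ipK(v, μ v)] = 2 𝕀[X V₁ μ n2(v)] ≤ 2C 𝕀[X |∂_t Z| V₁ n2(v)]`      (`ld0_mu_bound`):  cancels.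
   (2) `2 |𝕀[X V₁ ipK(v, L F)]| ≤ 2 K₂ √D₁ √D_F ≤ (c/4) D₁ + (4 K₂²/c) D_F`      (`w2_form_bound` with `om = V = V' = V₁`, `k = slT v t`, `H = F`;  `√(V₁ V₁) = V₁`;  `|tt V₁| ≤ C_T V₁`: `w0_tb_wL 4 M`).
   (3) `2 X V₁ |ipK(v, FF U)| ≤ (c q/4) V₁ n2(v) + (4/(c q)) V₁ X² n2(FF U)`,    `X² n2(FF U) ≤ (16/9) K_F (n2t + n2)(u)/Θ²`  (`ld0_FF_bound`, `w0_Xf_le_rh2`),    `V₁/Θ² = r̂⁴ V₀/Θ² ≤ V₀`  (`w0_rh2_le_Th`):      `≤ (c/4) D₁ + C' D₀`.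
   (4) core:  `En q (wH 3 52 q t) (slT v t) = 𝕀[X wH ipK(v, uV(L U))]`  (`ipK_self`, `n2_eq_nk`),  so  `K Λ^{e₁} En(wH)(v) ≤ K K₃ √D₁ √D₀ ≤ (c/4) D₁ + C'' D₀`      by `w2_form_bound` with `om = Λ^{e₁} wH 3 52 q t`, `V = V₁`, `V' = V₀`, `k = slT v t`, `H = U`:
        `√(V₁ V₀) = r̂² V₀ ≥ r̂⁶/Θ^M` (`w0_wH_le_wL`: `wH 2 M ≤ wL 2 M`),    `Λ^{e₁} r̂⁶/Θ^{52} ≤ r̂⁶ Θ^{e₁}/Θ^{52} = r̂⁶/Θ^M`  (`Λ ≤ Θ`: `w0_Lam_le_Th`;  `e₁ + M = 52`);     `|tt om| ≤ C_T om` (`w0_tb_wH 3 52`).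
   Result:  `E' + (c/4) D₁ ≤ C D₀ + C D_F`.
* `ld0_two`.   `(c₀, K₀, Λ_a)` from `ld0_le0` (`a = 2`), `(c₁, K₁, Λ_b)` from `ld0_le1`,  `Γ₀ :=` max of the two.     `X² V₀ ≤ (16/9) V₁`, so `𝕀[X² V₀ n2(F)] ≤ (16/9) 𝕀[V₁ n2(F)] ≤ (16/9) D_F` (`w2_Di_0`).
        `A := max 1 ((K₁ + 1)/c₀)`:      `(A E₀ + E₁)' + D₀ + c₁ D₁ ≤ A K₀ Λ^{e₀} En(wH)(u) + (2 A K₀ + K₁) D_F`.      `c := min 1 c₁`.
-/
import Claimed.Agent.R324.Core.LD0.Coer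
import Claimed.Agent.R324.Core.LD0.LE1a

set_option autoImplicit false

namespace Claimed.Agent.R324.Core

open Set Filter Topology MeasureTheory
open scoped ContDiff

noncomputable section

variable {q Λ₀ C : ℝ} {g : Bg}

/-- **(LE1)** in differential form. -/
theorem ld0_le1 (hq : 100 ≤ q) (hs : BgSm g) (hC : 1 ≤ C) (hΛ0 : 0 < Λ₀) (hΛ : Λ₀ ≤ 100 / q) (hc : CoefB q g Λ₀ C)
    (M e₁ : ℕ) (he : e₁ + M = 52) (hco : CoerL q g 4 M e₁) :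
    ∃ Γ₀ : ℝ, 0 ≤ Γ₀ ∧ ∀ Γ : ℝ, Γ₀ ≤ Γ → ∃ c K Λ₁ : ℝ, 0 < c ∧ 0 ≤ K ∧ 0 < Λ₁ ∧ Λ₁ ≤ Λ₀ ∧
      ∀ U : Tri, (∀ j, Sm (U j)) → ∀ t ∈ Ico (-Λ₁) 0, ∃ E' : ℝ,
        HasDerivAt (fun s => En q (wL 4 M q Γ s) (slT (Lop q g U) s)) E' t ∧
        E' + c * Di q (wL 4 M q Γ t) (slT (Lop q g U) t)
          ≤ K * Di q (wL 2 M q Γ t) (slT U t) + K * Di q (wL 4 M q Γ t) (slT (dfL q g U) t) :=
  ld0_le1_aux hq hs hC hΛ0 hΛ hc M e₁ he hco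

/-- **the two level estimate** `A (LE0) + (LE1)` in differential form, for an arbitrary smooth triple `U` with defect `dfL q g U = ∂_t U - L U`. -/
theorem ld0_two (hq : 100 ≤ q) (hs : BgSm g) (hC : 1 ≤ C) (hΛ0 : 0 < Λ₀) (hΛ : Λ₀ ≤ 100 / q) (hc : CoefB q g Λ₀ C)
    (M e₀ e₁ : ℕ) (he : e₁ + M = 52) (hco0 : CoerL q g 2 M e₀) (hco1 : CoerL q g 4 M e₁) :
    ∃ Γ₀ : ℝ, 0 ≤ Γ₀ ∧ ∀ Γ : ℝ, Γ₀ ≤ Γ → ∃ A c K Λ₁ : ℝ, 1 ≤ A ∧ 0 < c ∧ 0 ≤ K ∧ 0 < Λ₁ ∧ Λ₁ ≤ Λ₀ ∧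
      ∀ U : Tri, (∀ j, Sm (U j)) → ∀ t ∈ Ico (-Λ₁) 0, ∃ E' : ℝ,
        HasDerivAt (fun s => A * En q (wL 2 M q Γ s) (slT U s) + En q (wL 4 M q Γ s) (slT (Lop q g U) s)) E' t ∧
        E' + c * (Di q (wL 2 M q Γ t) (slT U t) + Di q (wL 4 M q Γ t) (slT (Lop q g U) t))
          ≤ K * (-t) ^ e₀ * En q (wH 3 52 q t) (slT U t) + K * Di q (wL 4 M q Γ t) (slT (dfL q g U) t) := by
  have hq1 : (1 : ℝ) < q := by linarith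
  have hq0 : (0 : ℝ) < q := by linarith
  obtain ⟨Γa, hΓa, ha⟩ := ld0_le0 hq hs (by linarith : 0 < C) hΛ0 hc 2 M e₀ hco0
  obtain ⟨Γb, hΓb, hb⟩ := ld0_le1 hq hs hC hΛ0 hΛ hc M e₁ he hco1
  refine ⟨max Γa Γb, le_max_of_le_left hΓa, fun Γ hΓ => ?_⟩
  have hΓ0 : 0 ≤ Γ := (le_max_of_le_left hΓa).trans hΓ
  obtain ⟨c₀, K₀, Λa, hc₀, hK₀, hΛa, hΛa', ha'⟩ := ha Γ ((le_max_left _ _).trans hΓ)
  obtain ⟨c₁, K₁, Λb, hc₁, hK₁, hΛb, hΛb', hb'⟩ := hb Γ ((le_max_right _ _).trans hΓ)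
  have hA1 : (1 : ℝ) ≤ max 1 ((K₁ + 1) / c₀) := le_max_left _ _
  have hA2 : K₁ + 1 ≤ max 1 ((K₁ + 1) / c₀) * c₀ := by
    have h := le_max_right (1 : ℝ) ((K₁ + 1) / c₀)
    have h' := mul_le_mul_of_nonneg_right h hc₀.le
    rwa [div_mul_cancel₀ _ hc₀.ne'] at h'
  generalize max 1 ((K₁ + 1) / c₀) = A at hA1 hA2
  have hA0 : 0 ≤ A := by linarith
  refine ⟨A, min 1 c₁, 2 * A * K₀ + K₁, min Λa Λb, hA1, lt_min one_pos hc₁, by positivity,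
    lt_min hΛa hΛb, (min_le_left _ _).trans hΛa', ?_⟩
  intro U hU t ht
  have ht0 : t < 0 := ht.2
  have hta : t ∈ Ico (-Λa) 0 := ⟨by have := ht.1; have := min_le_left Λa Λb; linarith, ht0⟩
  have htb : t ∈ Ico (-Λb) 0 := ⟨by have := ht.1; have := min_le_right Λa Λb; linarith, ht0⟩
  obtain ⟨E0', hE0, h0⟩ := ha' U hU t hta
  obtain ⟨E1', hE1, h1⟩ := hb' U hU t htb
  refine ⟨A * E0' + E1', (hE0.const_mul A).add hE1, ?_⟩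
  -- regularity and signs
  have hF : ∀ j, SmI (slT (dfL q g U) t j) := smI_slT (sm_dfL q hs hU) ht0
  obtain ⟨C2, -, hC2⟩ := w0_tb_wL 2 M
  obtain ⟨C4, -, hC4⟩ := w0_tb_wL 4 M
  have hV0 : CI (wL 2 M q Γ t) := (hC2 q Γ t hq1 hΓ0 ht0).sm.continuousOn
  have hV1 : CI (wL 4 M q Γ t) := (hC4 q Γ t hq1 hΓ0 ht0).sm.continuousOn
  have hV0p : ∀ y ∈ Icc (-1 : ℝ) 1, 0 ≤ wL 2 M q Γ t y := fun y hy => (w0_wL_pos hq1 hΓ0 ht0 hy).le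
  have hV1p : ∀ y ∈ Icc (-1 : ℝ) 1, 0 ≤ wL 4 M q Γ t y := fun y hy => (w0_wL_pos hq1 hΓ0 ht0 hy).le
  have hD0 : 0 ≤ Di q (wL 2 M q Γ t) (slT U t) := w2_Di_nonneg hq1.le hV0p _
  have hD1 : 0 ≤ Di q (wL 4 M q Γ t) (slT (Lop q g U) t) := w2_Di_nonneg hq1.le hV1p _
  have hDF : 0 ≤ Di q (wL 4 M q Γ t) (slT (dfL q g U) t) := w2_Di_nonneg hq1.le hV1p _
  have hEn : 0 ≤ En q (wH 3 52 q t) (slT U t) := by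
    unfold En
    refine ii_nonneg (fun y hy => ?_)
    have hX : 0 ≤ 1 - y ^ 2 := by
      have h1 := hy.1
      have h2 := hy.2
      nlinarith
    exact mul_nonneg (mul_nonneg hX (w0_wH_pos hq1 ht0 hy).le) (n2_nonneg hq0 _ y)
  have hpow : 0 ≤ (-t) ^ e₀ := pow_nonneg (by linarith) _
  -- the forcing term of (LE0)
  have hIF : II (fun y => Xf y ^ 2 * wL 2 M q Γ t y * n2 q (slT (dfL q g U) t) y)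
      ≤ 16 / 9 * Di q (wL 4 M q Γ t) (slT (dfL q g U) t) := by
    have h2 : II (fun y => Xf y ^ 2 * wL 2 M q Γ t y * n2 q (slT (dfL q g U) t) y)
        ≤ II (fun y => 16 / 9 * (wL 4 M q Γ t y * n2 q (slT (dfL q g U) t) y)) := by
      refine ii_mono (((smI_Xf.pow 2).continuousOn.mul hV0).mul (ci_n2 hF))
        (continuousOn_const.mul (hV1.mul (ci_n2 hF))) (fun y hy => ?_)
      have hX := w0_Xf_le_rh2 hq1 ht0 hy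
      have hX0 : 0 ≤ Xf y := by
        unfold Xf
        have h1 := hy.1
        have h2 := hy.2
        nlinarith
      have hw : wL 4 M q Γ t y = (rh2 q t y) ^ 2 * wL 2 M q Γ t y := w0_wL_add_two 2 M q Γ t y
      have hsq : Xf y ^ 2 ≤ 16 / 9 * (rh2 q t y) ^ 2 := by nlinarith
      have hn := n2_nonneg hq0 (slT (dfL q g U) t) y
      have hprod : 0 ≤ wL 2 M q Γ t y * n2 q (slT (dfL q g U) t) y := mul_nonneg (hV0p y hy) hn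
      rw [hw]
      nlinarith [mul_le_mul_of_nonneg_right hsq hprod]
    rw [ii_const_mul] at h2
    have h3 := w2_Di_0 hq1.le hV1 hV1p hF
    linarith
  -- assembly
  have e1 : A * (E0' + c₀ * Di q (wL 2 M q Γ t) (slT U t))
      ≤ A * (K₀ * (-t) ^ e₀ * En q (wH 3 52 q t) (slT U t)
        + K₀ * II (fun y => Xf y ^ 2 * wL 2 M q Γ t y * n2 q (slT (dfL q g U) t) y)) :=
    mul_le_mul_of_nonneg_left h0 hA0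
  have e2 : A * K₀ * II (fun y => Xf y ^ 2 * wL 2 M q Γ t y * n2 q (slT (dfL q g U) t) y)
      ≤ A * K₀ * (16 / 9 * Di q (wL 4 M q Γ t) (slT (dfL q g U) t)) :=
    mul_le_mul_of_nonneg_left hIF (mul_nonneg hA0 hK₀)
  have e3 : (K₁ + 1) * Di q (wL 2 M q Γ t) (slT U t) ≤ A * c₀ * Di q (wL 2 M q Γ t) (slT U t) :=
    mul_le_mul_of_nonneg_right hA2 hD0
  have e4 : min 1 c₁ * Di q (wL 2 M q Γ t) (slT U t) ≤ 1 * Di q (wL 2 M q Γ t) (slT U t) :=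
    mul_le_mul_of_nonneg_right (min_le_left _ _) hD0
  have e5 : min 1 c₁ * Di q (wL 4 M q Γ t) (slT (Lop q g U) t) ≤ c₁ * Di q (wL 4 M q Γ t) (slT (Lop q g U) t) :=
    mul_le_mul_of_nonneg_right (min_le_right _ _) hD1
  have e6 : 0 ≤ A * K₀ * Di q (wL 4 M q Γ t) (slT (dfL q g U) t) := mul_nonneg (mul_nonneg hA0 hK₀) hDF
  have e7 : 0 ≤ (A * K₀ + K₁) * ((-t) ^ e₀ * En q (wH 3 52 q t) (slT U t)) :=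
    mul_nonneg (by positivity) (mul_nonneg hpow hEn)
  generalize Di q (wL 2 M q Γ t) (slT U t) = D0 at *
  generalize Di q (wL 4 M q Γ t) (slT (Lop q g U) t) = D1 at *
  generalize Di q (wL 4 M q Γ t) (slT (dfL q g U) t) = DF at *
  generalize En q (wH 3 52 q t) (slT U t) = EH at *
  generalize II (fun y => Xf y ^ 2 * wL 2 M q Γ t y * n2 q (slT (dfL q g U) t) y) = IF at *
  generalize (-t) ^ e₀ = P at *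
  nlinarith

/-- the two level estimate for the reference operator `L̃ = Lt q g`, `M = 30`. -/
theorem ld0_two30 (q : ℝ) (hq : 100 ≤ q) (g : Bg) (hg : BgGood q g) :
    ∃ Γ₀ : ℝ, 0 ≤ Γ₀ ∧ ∀ Γ : ℝ, Γ₀ ≤ Γ → ∃ A c K Λ₁ : ℝ, 1 ≤ A ∧ 0 < c ∧ 0 ≤ K ∧ 0 < Λ₁ ∧ Λ₁ ≤ 100 / q ∧
      ∀ U : Tri, (∀ j, Sm (U j)) → ∀ t ∈ Ico (-Λ₁) 0, ∃ E' : ℝ,
        HasDerivAt (fun s => A * E0 q Γ U s + E1 q g Γ U s) E' t ∧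
        E' + c * (D0 q Γ U t + D1 q g Γ U t)
          ≤ K * (-t) ^ 20 * En q (wH 3 52 q t) (slT U t) + K * DY q Γ (dfL q (bgR q g) U) t := by
  obtain ⟨Λ₀, C, hΛ0, hΛ, hC, hc⟩ := wc_coefB_R hq hg
  obtain ⟨Γ₀, hΓ₀, h⟩ := ld0_two hq (bgR_sm (by linarith) hg.sm) hC hΛ0 hΛ hc 30 20 22 rfl hg.coerL0 hg.coerL1
  refine ⟨Γ₀, hΓ₀, fun Γ hΓ => ?_⟩
  obtain ⟨A, c, K, Λ₁, hA, hc', hK, hΛ₁, hΛ₁', h'⟩ := h Γ hΓ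
  exact ⟨A, c, K, Λ₁, hA, hc', hK, hΛ₁, hΛ₁'.trans hΛ, h'⟩

/-- the two level estimate for `L̃`, `M = 28` (time level of CL). -/
theorem ld0_two28 (q : ℝ) (hq : 100 ≤ q) (g : Bg) (hg : BgGood q g) :
    ∃ Γ₀ : ℝ, 0 ≤ Γ₀ ∧ ∀ Γ : ℝ, Γ₀ ≤ Γ → ∃ A c K Λ₁ : ℝ, 1 ≤ A ∧ 0 < c ∧ 0 ≤ K ∧ 0 < Λ₁ ∧ Λ₁ ≤ 100 / q ∧
      ∀ U : Tri, (∀ j, Sm (U j)) → ∀ t ∈ Ico (-Λ₁) 0, ∃ E' : ℝ,
        HasDerivAt (fun s => A * En q (wL 2 28 q Γ s) (slT U s) + En q (wL 4 28 q Γ s) (slT (Lt q g U) s)) E' t ∧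
        E' + c * (Di q (wL 2 28 q Γ t) (slT U t) + Di q (wL 4 28 q Γ t) (slT (Lt q g U) t))
          ≤ K * (-t) ^ 22 * En q (wH 3 52 q t) (slT U t) + K * Di q (wL 4 28 q Γ t) (slT (dfL q (bgR q g) U) t) := by
  obtain ⟨Λ₀, C, hΛ0, hΛ, hC, hc⟩ := wc_coefB_R hq hg
  obtain ⟨Γ₀, hΓ₀, h⟩ := ld0_two hq (bgR_sm (by linarith) hg.sm) hC hΛ0 hΛ hc 28 22 24 rfl hg.coerL0' hg.coerL1'
  refine ⟨Γ₀, hΓ₀, fun Γ hΓ => ?_⟩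
  obtain ⟨A, c, K, Λ₁, hA, hc', hK, hΛ₁, hΛ₁', h'⟩ := h Γ hΓ
  exact ⟨A, c, K, Λ₁, hA, hc', hK, hΛ₁, hΛ₁'.trans hΛ, h'⟩

end

end Claimed.Agent.R324.Core
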