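/-
Row 324 (S0582), PDE core, module LD (architect of LD0, LD4, LD5: helper325).   Blueprint 7.4, tags LD4, LD5 (time integrated), H2 of 7.6.      FILE LD0/Int
CONSUMER SHAPES of the two level estimate `ld0_two30` (LD0/LE1.lean):     `𝓔 = A E0 + E1`,  `𝓓 = D0 + D1`,  `F = dfL q (bgR q g) U = ∂_t U - L̃ U`,
        `𝓔' + c 𝓓 ≤ K Λ²⁰ En(wH 3 52)(U) + K DY(F)`        for EVERY smooth triple `U`, `t ∈ [-Λ₁,0)`.
* `ld0_II_contOn`:  `(ld0_dui hF ht).continuousAt.continuousWithinAt`.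
* `ld0_Di_contOn`, `ld0_En_contOn`:  the integrand is the slice of an `SmS` function (`hV`, `ld0_n2_sm`, `Sm.smS`, `SmS.mul`, `SmS.add`, `sm_Xf`);  `Di q (sl Vp t) (slT U t) = II (sl G t)` by `rfl`/`unfold Di En`.
* `ld0_Di_add_le`:  pointwise `n2 (u+u') ≤ 2 n2 u + 2 n2 u'`, `n2t (u+u') ≤ 2 n2t u + 2 n2t u'`  (`tt_add`, `(a+b)² ≤ 2a²+2b²`);  `ii_mono`, `ii_add`, `ii_const_mul`.       `ld0_Di_smul`:  `tt_const_mul`;  `ii_const_mul`.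
* `ld0_core_EEB`:  `EEB q U t = Λ^{95/2} En q (wH 3 52 q t) (slT U t)`;   `Λ^{-55/2} Λ^{95/2} = Λ^{20}`  (`Real.rpow_add`, `Real.rpow_natCast`; `Λ > 0`).
* `ld0_h2`:  on `t ≤ s₂ < 0`:   `wH 3 52 = r̂⁶/Θ⁵² ≤ (r̂²/Θ²²) wL 2 30 ≤ Θ⁻²¹ wL 2 30 ≤ (-s₂)⁻²¹ wL 2 30`   (`w0_wH_le_wL`, `w0_rh2_le_Th`, `w0_Lam_le_Th`),   `Λ²⁰ ≤ 1`:     `K Λ²⁰ En(wH 3 52)(U) ≤ K (-s₂)⁻²¹ E0 ≤ C' (A E0 + E1)`   (`A ≥ 1`, `E1 ≥ 0`).
* `ld0_two_int`:  `Φ(t) := 𝓔(t) + c ∫_{ts}^t 𝓓 - K ∫_{ts}^t h`,  `h(s) = Λ²⁰ En(wH)(U) + DY(F)`;   `𝓓`, `h` are continuous on `(-∞,0)` (`ld0_Di_contOn`, `ld0_En_contOn`, `smS_wL`, `smS_wH`, `sm_Lt`, `sm_dfL`), so `Φ` has the derivative `E' + c 𝓓 - K h ≤ 0` at every `t ∈ [ts,0)`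
      (`intervalIntegral.integral_hasDerivAt_right`);   `antitoneOn_of_deriv_nonpos` on `[ts,t]`;    `Φ(ts) = 𝓔(ts) = 0`:   `U(ts,·) = 0` on `[-1,1]` ⟹ `En = 0` (`ld0_En_congr` with the zero triple; `n2 = 0`), and `L̃ U (ts,·) = 0` on `[-1,1]` (`ld0_lop_congr` with `W = 0`; `Lop q g 0 = 0`).       (Model: `cl_gronwall` in Core/CL/Gron.lean.)
* `ld0_xb`:  `E0 ≤ 𝓔 ≤ K R²` (`A ≥ 1`, `E0, E1 ≥ 0`, `∫ 𝓓 ≥ 0`), `E1 ≤ K R²`, `∫ D0, ∫ D1 ≤ ∫ 𝓓 ≤ (K/c) R²`  (`intervalIntegral.integral_mono_on`, `D0, D1 ≥ 0`: `w2_Di_nonneg`).     `C := √(K (1 + 1/c))`.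
-/
import Claimed.Agent.R324.Core.LD0.LE1

set_option autoImplicit false

namespace Claimed.Agent.R324.Core

open Set Filter Topology MeasureTheory
open scoped ContDiff

noncomputable section

variable {F Vp : Fn} {U : Tri}

theorem ld0_II_contOn (hF : SmS F) : ContinuousOn (fun t => II (sl F t)) (Iio 0) :=
  fun _ ht => (ld0_dui hF ht).continuousAt.continuousWithinAt

theorem ld0_Di_contOn (q : ℝ) (hV : SmS Vp) (hU : ∀ j, Sm (U j)) :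
    ContinuousOn (fun t => Di q (sl Vp t) (slT U t)) (Iio 0) := by
  have hG : SmS (fun p => Vp p * (n2t q (slT U p.1) p.2 + q * n2 q (slT U p.1) p.2)) :=
    hV.mul ((ld0_n2_sm q hU).2.smS.add ((ld0_n2_sm q hU).1.smS.const_mul q))
  exact ld0_II_contOn hG

theorem ld0_En_contOn (q : ℝ) (hV : SmS Vp) (hU : ∀ j, Sm (U j)) :
    ContinuousOn (fun t => En q (sl Vp t) (slT U t)) (Iio 0) := by
  have hG : SmS (fun p => Xf p.2 * Vp p * n2 q (slT U p.1) p.2) :=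
    (sm_Xf.smS.mul hV).mul (ld0_n2_sm q hU).1.smS
  exact ld0_II_contOn hG

theorem ld0_Di_add_le {q : ℝ} (hq : 0 < q) {V : ℝ → ℝ} (hV : CI V) (h0 : ∀ y ∈ Icc (-1 : ℝ) 1, 0 ≤ V y)
    {u u' : Fin 3 → ℝ → ℝ} (hu : ∀ j, SmI (u j)) (hu' : ∀ j, SmI (u' j)) :
    Di q V (fun j y => u j y + u' j y) ≤ 2 * Di q V u + 2 * Di q V u' := by
  have hX : SmI (fun y : ℝ => 1 - y ^ 2) := (smI_const 1).sub (smI_id.pow 2)
  have hs : ∀ j, SmI (fun y => u j y + u' j y) := fun j => (hu j).add (hu' j)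
  have c0 : CI (fun y => V y * (n2t q (fun j y => u j y + u' j y) y + q * n2 q (fun j y => u j y + u' j y) y)) :=
    hV.mul ((ci_n2t hs).add (continuousOn_const.mul (ci_n2 hs)))
  have c1 : CI (fun y => V y * (n2t q u y + q * n2 q u y)) :=
    hV.mul ((ci_n2t hu).add (continuousOn_const.mul (ci_n2 hu)))
  have c2 : CI (fun y => V y * (n2t q u' y + q * n2 q u' y)) :=
    hV.mul ((ci_n2t hu').add (continuousOn_const.mul (ci_n2 hu')))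
  have c1' : CI (fun y => 2 * (V y * (n2t q u y + q * n2 q u y))) := continuousOn_const.mul c1
  have c2' : CI (fun y => 2 * (V y * (n2t q u' y + q * n2 q u' y))) := continuousOn_const.mul c2
  have sq : ∀ a b : ℝ, (a + b) ^ 2 ≤ 2 * a ^ 2 + 2 * b ^ 2 := fun a b => by nlinarith [sq_nonneg (a - b)]
  have hq1 : 0 < q + 1 := by linarith
  have hqq : 0 ≤ q / (q + 1) := (div_pos hq hq1).le
  unfold Di
  rw [← ii_const_mul, ← ii_const_mul, ← ii_add c1' c2']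
  refine ii_mono c0 (c1'.add c2') (fun y hy => ?_)
  have hn2 : n2 q (fun j y => u j y + u' j y) y ≤ 2 * n2 q u y + 2 * n2 q u' y := by
    unfold n2
    have e3 : (1 - y ^ 2) * (u 2 y + u' 2 y) = (1 - y ^ 2) * u 2 y + (1 - y ^ 2) * u' 2 y := by ring
    rw [e3]
    have s0 := mul_le_mul_of_nonneg_left (sq (u 0 y) (u' 0 y)) hq1.le
    have s1 := sq (u 1 y) (u' 1 y)
    have s2 := mul_le_mul_of_nonneg_left (sq ((1 - y ^ 2) * u 2 y) ((1 - y ^ 2) * u' 2 y)) hqq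
    nlinarith
  have hn2t : n2t q (fun j y => u j y + u' j y) y ≤ 2 * n2t q u y + 2 * n2t q u' y := by
    unfold n2t
    have t0 : tt (fun z => u 0 z + u' 0 z) y = tt (u 0) y + tt (u' 0) y :=
      tt_add ((hu 0).differentiableAt hy) ((hu' 0).differentiableAt hy)
    have t1 : tt (fun z => u 1 z + u' 1 z) y = tt (u 1) y + tt (u' 1) y :=
      tt_add ((hu 1).differentiableAt hy) ((hu' 1).differentiableAt hy)
    have t2 : tt (fun z => (1 - z ^ 2) * (u 2 z + u' 2 z)) y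
        = tt (fun z => (1 - z ^ 2) * u 2 z) y + tt (fun z => (1 - z ^ 2) * u' 2 z) y := by
      have e : (fun z => (1 - z ^ 2) * (u 2 z + u' 2 z))
          = fun z => (1 - z ^ 2) * u 2 z + (1 - z ^ 2) * u' 2 z := by
        funext z; ring
      rw [e]
      exact tt_add ((hX.mul (hu 2)).differentiableAt hy) ((hX.mul (hu' 2)).differentiableAt hy)
    rw [t0, t1, t2]
    have s0 := mul_le_mul_of_nonneg_left (sq (tt (u 0) y) (tt (u' 0) y)) hq1.le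
    have s1 := sq (tt (u 1) y) (tt (u' 1) y)
    have s2 := mul_le_mul_of_nonneg_left
      (sq (tt (fun z => (1 - z ^ 2) * u 2 z) y) (tt (fun z => (1 - z ^ 2) * u' 2 z) y)) hqq
    nlinarith
  have hVy := h0 y hy
  have hsum : n2t q (fun j y => u j y + u' j y) y + q * n2 q (fun j y => u j y + u' j y) y
      ≤ 2 * (n2t q u y + q * n2 q u y) + 2 * (n2t q u' y + q * n2 q u' y) := by
    have := mul_le_mul_of_nonneg_left hn2 hq.le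
    linarith
  calc V y * (n2t q (fun j y => u j y + u' j y) y + q * n2 q (fun j y => u j y + u' j y) y)
      ≤ V y * (2 * (n2t q u y + q * n2 q u y) + 2 * (n2t q u' y + q * n2 q u' y)) :=
        mul_le_mul_of_nonneg_left hsum hVy
    _ = 2 * (V y * (n2t q u y + q * n2 q u y)) + 2 * (V y * (n2t q u' y + q * n2 q u' y)) := by ring

theorem ld0_Di_smul (q : ℝ) (V : ℝ → ℝ) (c : ℝ) {u : Fin 3 → ℝ → ℝ} (hu : ∀ j, SmI (u j)) :
    Di q V (fun j y => c * u j y) = c ^ 2 * Di q V u := by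
  have hX : SmI (fun y : ℝ => 1 - y ^ 2) := (smI_const 1).sub (smI_id.pow 2)
  unfold Di
  rw [← ii_const_mul]
  refine ii_congr (fun y hy => ?_)
  have hn2 : n2 q (fun j y => c * u j y) y = c ^ 2 * n2 q u y := by
    unfold n2
    ring
  have hn2t : n2t q (fun j y => c * u j y) y = c ^ 2 * n2t q u y := by
    unfold n2t
    have t0 : tt (fun z => c * u 0 z) y = c * tt (u 0) y := tt_const_mul c ((hu 0).differentiableAt hy)
    have t1 : tt (fun z => c * u 1 z) y = c * tt (u 1) y := tt_const_mul c ((hu 1).differentiableAt hy)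
    have t2 : tt (fun z => (1 - z ^ 2) * (c * u 2 z)) y = c * tt (fun z => (1 - z ^ 2) * u 2 z) y := by
      have e : (fun z => (1 - z ^ 2) * (c * u 2 z)) = fun z => c * ((1 - z ^ 2) * u 2 z) := by
        funext z; ring
      rw [e]
      exact tt_const_mul c ((hX.mul (hu 2)).differentiableAt hy)
    rw [t0, t1, t2]
    ring
  rw [hn2, hn2t]
  ring

theorem ld0_core_EEB (q : ℝ) (U : Tri) {t : ℝ} (ht : t < 0) :
    (-t) ^ 20 * En q (wH 3 52 q t) (slT U t) = (-t) ^ (-(55 : ℝ) / 2) * EEB q U t := by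
  have hΛ : 0 < -t := by linarith
  unfold EEB
  rw [← mul_assoc, ← Real.rpow_add hΛ]
  have : -(55 : ℝ) / 2 + 95 / 2 = ((20 : ℕ) : ℝ) := by norm_num
  rw [this, Real.rpow_natCast]

/-- `wH 3 52 ≤ (-s₂)⁻²¹ wL 2 30` for `t ≤ s₂ < 0`. -/
theorem ld0_h2_wt {q Γ t s₂ y : ℝ} (hq : 100 ≤ q) (hΓ : 0 ≤ Γ) (hs₂ : s₂ < 0) (ht : t ≤ s₂) (hΛ : -t ≤ 100 / q)
    (hy : y ∈ Icc (-1 : ℝ) 1) : wH 3 52 q t y ≤ 1 / (-s₂) ^ 21 * wL 2 30 q Γ t y := by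
  have hq1 : (1 : ℝ) < q := by linarith
  have ht0 : t < 0 := lt_of_le_of_lt ht hs₂
  have hs0 : 0 < -s₂ := by linarith
  have hr := w0_rh2_pos hq1 ht0 hy
  have hΘ := w0_Th_pos ht0 hy
  have hrΘ := w0_rh2_le_Th hq ht0 hΛ y
  have hsΘ : -s₂ ≤ Th t y := le_trans (by linarith) (w0_Lam_le_Th (t := t) hy)
  have a1 : wH 3 52 q t y = rh2 q t y / Th t y ^ 22 * wH 2 30 q t y := by
    unfold wH
    field_simp
  have a2 : rh2 q t y / Th t y ^ 22 ≤ 1 / (-s₂) ^ 21 := by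
    rw [div_le_div_iff₀ (by positivity) (by positivity)]
    have h5 : (-s₂) ^ 21 ≤ Th t y ^ 21 := pow_le_pow_left₀ hs0.le hsΘ 21
    calc rh2 q t y * (-s₂) ^ 21 ≤ Th t y * Th t y ^ 21 := mul_le_mul hrΘ h5 (by positivity) hΘ.le
      _ = 1 * Th t y ^ 22 := by ring
  rw [a1]
  exact mul_le_mul a2 (w0_wH_le_wL hq1 hΓ ht0 hy) (w0_wH_pos hq1 ht0 hy).le (by positivity)

theorem ld0_h2_En_nonneg {q : ℝ} (hq : 0 < q) {V : ℝ → ℝ} (h0 : ∀ y ∈ Icc (-1 : ℝ) 1, 0 ≤ V y)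
    (u : Fin 3 → ℝ → ℝ) : 0 ≤ En q V u := by
  unfold En
  refine ii_nonneg (fun y hy => ?_)
  have hX : 0 ≤ 1 - y ^ 2 := by nlinarith [hy.1, hy.2]
  exact mul_nonneg (mul_nonneg hX (h0 y hy)) (n2_nonneg hq u y)

/-- **H2** (shape of `HiU.h2`, Core/HI/Defs.lean). -/
theorem ld0_h2 (q : ℝ) (hq : 100 ≤ q) (g : Bg) (hg : BgGood q g) :
    ∃ Γ₀ : ℝ, 0 ≤ Γ₀ ∧ ∀ Γ : ℝ, Γ₀ ≤ Γ → ∃ A c K Λ₁ : ℝ, 1 ≤ A ∧ 0 < c ∧ 0 ≤ K ∧ 0 < Λ₁ ∧
      ∀ s₂ < 0, ∃ C' : ℝ, 0 ≤ C' ∧ ∀ U : Tri, (∀ j, Sm (U j)) → ∀ t ∈ Icc (-Λ₁) s₂, ∃ e' : ℝ,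
        HasDerivAt (fun s => A * E0 q Γ U s + E1 q g Γ U s) e' t ∧
        e' + c * (D0 q Γ U t + D1 q g Γ U t)
          ≤ C' * (A * E0 q Γ U t + E1 q g Γ U t) + K * DY q Γ (dfL q (bgR q g) U) t := by
  have hq1 : (1 : ℝ) < q := by linarith
  have hq0 : (0 : ℝ) < q := by linarith
  obtain ⟨Γ₀, hΓ₀, h⟩ := ld0_two30 q hq g hg
  refine ⟨Γ₀, hΓ₀, fun Γ hΓ => ?_⟩
  obtain ⟨A, c, K, Λ₁, hA, hc, hK, hΛ₁, hΛq, h'⟩ := h Γ hΓ
  refine ⟨A, c, K, Λ₁, hA, hc, hK, hΛ₁, fun s₂ hs₂ => ?_⟩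
  have hs0 : 0 < -s₂ := by linarith
  have hcs : 0 ≤ 1 / (-s₂) ^ 21 := by positivity
  refine ⟨K * (1 / (-s₂) ^ 21), mul_nonneg hK hcs, fun U hU t ht => ?_⟩
  have ht0 : t < 0 := lt_of_le_of_lt ht.2 hs₂
  obtain ⟨E', hE', hineq⟩ := h' U hU t ⟨ht.1, ht0⟩
  refine ⟨E', hE', hineq.trans ?_⟩
  have hΓ0 : 0 ≤ Γ := hΓ₀.trans hΓ
  have hΛt : -t ≤ 100 / q := by linarith [ht.1]
  have hΛ1 : -t ≤ 1 := hΛt.trans (by rw [div_le_one hq0]; linarith)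
  have hpow : (-t) ^ 20 ≤ 1 := pow_le_one₀ (by linarith) hΛ1
  have hu : ∀ j, SmI (slT U t j) := fun j => ((hU j).smS).smI ht0
  have hE0 : 0 ≤ E0 q Γ U t :=
    ld0_h2_En_nonneg hq0 (fun y hy => (w0_wL_pos hq1 hΓ0 ht0 hy).le) _
  have hE1 : 0 ≤ E1 q g Γ U t :=
    ld0_h2_En_nonneg hq0 (fun y hy => (w0_wL_pos hq1 hΓ0 ht0 hy).le) _
  have hEH : 0 ≤ En q (wH 3 52 q t) (slT U t) :=
    ld0_h2_En_nonneg hq0 (fun y hy => (w0_wH_pos hq1 ht0 hy).le) _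
  have hX : SmI (fun y : ℝ => 1 - y ^ 2) := (smI_const 1).sub (smI_id.pow 2)
  have c1 : CI (fun y => (1 - y ^ 2) * wH 3 52 q t y * n2 q (slT U t) y) :=
    (hX.mul ((smS_wH 3 52 q).smI ht0)).continuousOn.mul (ci_n2 hu)
  have c2 : CI (fun y => (1 - y ^ 2) * wL 2 30 q Γ t y * n2 q (slT U t) y) :=
    (hX.mul ((smS_wL 2 30 q Γ).smI ht0)).continuousOn.mul (ci_n2 hu)
  have key : En q (wH 3 52 q t) (slT U t) ≤ 1 / (-s₂) ^ 21 * E0 q Γ U t := by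
    show II (fun y => (1 - y ^ 2) * wH 3 52 q t y * n2 q (slT U t) y)
      ≤ 1 / (-s₂) ^ 21 * II (fun y => (1 - y ^ 2) * wL 2 30 q Γ t y * n2 q (slT U t) y)
    rw [← ii_const_mul]
    refine ii_mono c1 (continuousOn_const.mul c2) (fun y hy => ?_)
    have hXy : 0 ≤ 1 - y ^ 2 := by nlinarith [hy.1, hy.2]
    have hn := n2_nonneg hq0 (slT U t) y
    have hw := ld0_h2_wt (Γ := Γ) hq hΓ0 hs₂ ht.2 hΛt hy
    calc (1 - y ^ 2) * wH 3 52 q t y * n2 q (slT U t) y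
        ≤ (1 - y ^ 2) * (1 / (-s₂) ^ 21 * wL 2 30 q Γ t y) * n2 q (slT U t) y :=
          mul_le_mul_of_nonneg_right (mul_le_mul_of_nonneg_left hw hXy) hn
      _ = 1 / (-s₂) ^ 21 * ((1 - y ^ 2) * wL 2 30 q Γ t y * n2 q (slT U t) y) := by ring
  have h1 : K * (-t) ^ 20 * En q (wH 3 52 q t) (slT U t) ≤ K * En q (wH 3 52 q t) (slT U t) := by
    have : K * (-t) ^ 20 ≤ K * 1 := mul_le_mul_of_nonneg_left hpow hK
    calc K * (-t) ^ 20 * En q (wH 3 52 q t) (slT U t) ≤ K * 1 * En q (wH 3 52 q t) (slT U t) :=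
          mul_le_mul_of_nonneg_right this hEH
      _ = _ := by ring
  have h2 : K * En q (wH 3 52 q t) (slT U t) ≤ K * (1 / (-s₂) ^ 21 * E0 q Γ U t) :=
    mul_le_mul_of_nonneg_left key hK
  have h3 : E0 q Γ U t ≤ A * E0 q Γ U t + E1 q g Γ U t := by nlinarith
  have h4 : K * (1 / (-s₂) ^ 21) * E0 q Γ U t ≤ K * (1 / (-s₂) ^ 21) * (A * E0 q Γ U t + E1 q g Γ U t) :=
    mul_le_mul_of_nonneg_left h3 (mul_nonneg hK hcs)
  linarith

/-- **(LE0) + (LE1), integrated in time.** -/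
theorem ld0_two_int (q : ℝ) (hq : 100 ≤ q) (g : Bg) (hg : BgGood q g) :
    ∃ Γ₀ : ℝ, 0 ≤ Γ₀ ∧ ∀ Γ : ℝ, Γ₀ ≤ Γ → ∃ A c K Λ₁ : ℝ, 1 ≤ A ∧ 0 < c ∧ 0 ≤ K ∧ 0 < Λ₁ ∧
      ∀ ts ∈ Ico (-Λ₁) 0, ∀ U : Tri, (∀ j, Sm (U j)) → (∀ j, ∀ y ∈ Icc (-1 : ℝ) 1, U j (ts, y) = 0) →
        ∀ t ∈ Ico ts 0,
          A * E0 q Γ U t + E1 q g Γ U t + c * ∫ s in ts..t, (D0 q Γ U s + D1 q g Γ U s)
            ≤ K * ∫ s in ts..t, ((-s) ^ 20 * En q (wH 3 52 q s) (slT U s) + DY q Γ (dfL q (bgR q g) U) s) := by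
  obtain ⟨Γ₀, hΓ₀, h⟩ := ld0_two30 q hq g hg
  refine ⟨Γ₀, hΓ₀, fun Γ hΓ => ?_⟩
  obtain ⟨A, c, K, Λ₁, hA, hc, hK, hΛ₁, _, h'⟩ := h Γ hΓ
  refine ⟨A, c, K, Λ₁, hA, hc, hK, hΛ₁, ?_⟩
  intro ts hts U hU hU0 t ht
  have hq1 : (1 : ℝ) < q := by linarith
  have hsR : BgSm (bgR q g) := bgR_sm hq1 hg.sm
  have hLt : ∀ j, Sm (Lt q g U j) := sm_Lt hq1 hg.sm hU
  have hdf : ∀ j, Sm (dfL q (bgR q g) U j) := sm_dfL q hsR hU
  set D : ℝ → ℝ := fun s => D0 q Γ U s + D1 q g Γ U s with hD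
  set H : ℝ → ℝ := fun s => (-s) ^ 20 * En q (wH 3 52 q s) (slT U s) + DY q Γ (dfL q (bgR q g) U) s with hH
  set E : ℝ → ℝ := fun s => A * E0 q Γ U s + E1 q g Γ U s with hE
  have hDc : ContinuousOn D (Iio 0) :=
    (ld0_Di_contOn q (smS_wL 2 30 q Γ) hU).add (ld0_Di_contOn q (smS_wL 4 30 q Γ) hLt)
  have hHc : ContinuousOn H (Iio 0) :=
    ((continuous_neg.pow 20).continuousOn.mul (ld0_En_contOn q (smS_wH 3 52 q) hU)).add
      (ld0_Di_contOn q (smS_wL 4 30 q Γ) hdf)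
  have hat : ts ≤ t := ht.1
  have ht0 : t < 0 := ht.2
  have hsub : Icc ts t ⊆ Iio 0 := fun s hs => lt_of_le_of_lt hs.2 ht0
  -- primitives
  have hprim : ∀ f : ℝ → ℝ, ContinuousOn f (Iio 0) → ∀ s ∈ Icc ts t,
      HasDerivAt (fun r => ∫ x in ts..r, f x) (f s) s := by
    intro f hf s hs
    have hs0 : s < 0 := hsub hs
    apply intervalIntegral.integral_hasDerivAt_right
    · apply ContinuousOn.intervalIntegrable
      rw [uIcc_of_le hs.1]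
      exact hf.mono (fun y hy => lt_of_le_of_lt hy.2 hs0)
    · exact hf.stronglyMeasurableAtFilter isOpen_Iio s hs0
    · exact hf.continuousAt (Iio_mem_nhds hs0)
  choose! E' hE' using h' U hU
  set Φ : ℝ → ℝ := fun s => E s + c * (∫ x in ts..s, D x) - K * (∫ x in ts..s, H x) with hΦ
  have hΦd : ∀ s ∈ Icc ts t, HasDerivAt Φ (E' s + c * D s - K * H s) s := by
    intro s hs
    have hsI : s ∈ Ico (-Λ₁) 0 := ⟨hts.1.trans hs.1, hsub hs⟩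
    exact (((hE' s hsI).1).add ((hprim D hDc s hs).const_mul c)).sub ((hprim H hHc s hs).const_mul K)
  have hanti : AntitoneOn Φ (Icc ts t) := by
    apply antitoneOn_of_deriv_nonpos (convex_Icc ts t)
    · exact fun s hs => (hΦd s hs).continuousAt.continuousWithinAt
    · rw [interior_Icc]
      intro s hs
      exact (hΦd s (Ioo_subset_Icc_self hs)).differentiableAt.differentiableWithinAt
    · rw [interior_Icc]
      intro s hs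
      have hs' := Ioo_subset_Icc_self hs
      rw [(hΦd s hs').deriv]
      have hsI : s ∈ Ico (-Λ₁) 0 := ⟨hts.1.trans hs'.1, hsub hs'⟩
      have h2 := (hE' s hsI).2
      have : K * H s = K * (-s) ^ 20 * En q (wH 3 52 q s) (slT U s) + K * DY q Γ (dfL q (bgR q g) U) s := by
        simp only [hH]; ring
      have h3 : E' s + c * D s ≤ K * H s := by rw [this]; exact h2
      linarith
  have hle : Φ t ≤ Φ ts := hanti (left_mem_Icc.2 hat) (right_mem_Icc.2 hat) hat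
  -- the initial value
  have hEn0 : ∀ V : ℝ → ℝ, En q V (fun _ _ => 0) = 0 := by
    intro V
    unfold En II
    simp [n2]
  have hE0 : E0 q Γ U ts = 0 := by
    unfold E0
    rw [ld0_En_congr q _ (u := slT U ts) (u' := fun _ _ => 0) (fun j y hy => hU0 j y hy), hEn0]
  have hW : ∀ j : Fin 3, Sm ((fun _ _ => 0 : Tri) j) := fun _ => sm_const 0
  have hL0 : ∀ j, ∀ y ∈ Icc (-1 : ℝ) 1, Lt q g U j (ts, y) = 0 := by
    intro j y hy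
    have := ld0_lop_congr q hsR hU hW hts.2 (fun j y hy => hU0 j y hy) j y hy
    unfold Lt
    rw [this]
    unfold Lop
    have hd : dY (fun _ => (0 : ℝ)) = fun _ => 0 := funext fun p => dY_const 0 p
    simp [hd]
  have hE1 : E1 q g Γ U ts = 0 := by
    unfold E1
    rw [ld0_En_congr q _ (u := slT (Lt q g U) ts) (u' := fun _ _ => 0) (fun j y hy => hL0 j y hy), hEn0]
  have hΦts : Φ ts = 0 := by
    simp [hΦ, hE, hE0, hE1]
  have : Φ t ≤ 0 := hΦts ▸ hle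
  simp only [hΦ, hE] at this
  linarith

theorem ld0_xb_En_nonneg {q : ℝ} (hq : 0 < q) {V : ℝ → ℝ} (h0 : ∀ y ∈ Icc (-1 : ℝ) 1, 0 ≤ V y)
    (u : Fin 3 → ℝ → ℝ) : 0 ≤ En q V u := by
  unfold En
  refine ii_nonneg (fun y hy => ?_)
  have hX : 0 ≤ 1 - y ^ 2 := by
    have h1 := hy.1
    have h2 := hy.2
    nlinarith
  exact mul_nonneg (mul_nonneg hX (h0 y hy)) (n2_nonneg hq u y)

/-- **the light norm is controlled by the heavy energy and the forcing.** -/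
theorem ld0_xb (q : ℝ) (hq : 100 ≤ q) (g : Bg) (hg : BgGood q g) :
    ∃ Γ₀ : ℝ, 0 ≤ Γ₀ ∧ ∀ Γ : ℝ, Γ₀ ≤ Γ → ∃ C Λ₁ : ℝ, 0 ≤ C ∧ 0 < Λ₁ ∧
      ∀ ts ∈ Ico (-Λ₁) 0, ∀ U : Tri, (∀ j, Sm (U j)) → (∀ j, ∀ y ∈ Icc (-1 : ℝ) 1, U j (ts, y) = 0) →
        ∀ R : ℝ, 0 ≤ R →
        (∀ t ∈ Ioo ts 0,
          ∫ s in ts..t, ((-s) ^ 20 * En q (wH 3 52 q s) (slT U s) + DY q Γ (dfL q (bgR q g) U) s) ≤ R ^ 2) →
        XB q g Γ ts (C * R) U := by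
  obtain ⟨Γ₀, hΓ₀, H⟩ := ld0_two_int q hq g hg
  refine ⟨Γ₀, hΓ₀, fun Γ hΓ => ?_⟩
  obtain ⟨A, c, K, Λ₁, hA, hc, hK, hΛ, H2⟩ := H Γ hΓ
  have hΓ0 : 0 ≤ Γ := hΓ₀.trans hΓ
  have hq1 : 1 < q := by linarith
  have hq0 : 0 < q := by linarith
  have hKc : 0 ≤ K * (1 + 1 / c) := by positivity
  refine ⟨Real.sqrt (K * (1 + 1 / c)), Λ₁, Real.sqrt_nonneg _, hΛ, fun ts hts U hU hU0 R hR hint => ?_⟩
  have hCR : (Real.sqrt (K * (1 + 1 / c)) * R) ^ 2 = K * (1 + 1 / c) * R ^ 2 := by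
    rw [mul_pow, Real.sq_sqrt hKc]
  have hLt : ∀ j, Sm (Lt q g U j) := sm_Lt hq1 hg.sm hU
  have hD0c : ContinuousOn (fun s => D0 q Γ U s) (Iio 0) := ld0_Di_contOn q (smS_wL 2 30 q Γ) hU
  have hD1c : ContinuousOn (fun s => D1 q g Γ U s) (Iio 0) := ld0_Di_contOn q (smS_wL 4 30 q Γ) hLt
  have hD0n : ∀ s < 0, 0 ≤ D0 q Γ U s := fun s hs =>
    w2_Di_nonneg hq1.le (fun y hy => (w0_wL_pos hq1 hΓ0 hs hy).le) _
  have hD1n : ∀ s < 0, 0 ≤ D1 q g Γ U s := fun s hs =>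
    w2_Di_nonneg hq1.le (fun y hy => (w0_wL_pos hq1 hΓ0 hs hy).le) _
  have hE0n : ∀ s < 0, 0 ≤ E0 q Γ U s := fun s hs =>
    ld0_xb_En_nonneg hq0 (fun y hy => (w0_wL_pos hq1 hΓ0 hs hy).le) _
  have hE1n : ∀ s < 0, 0 ≤ E1 q g Γ U s := fun s hs =>
    ld0_xb_En_nonneg hq0 (fun y hy => (w0_wL_pos hq1 hΓ0 hs hy).le) _
  have hR2 : 0 ≤ R ^ 2 := sq_nonneg R
  have hKR : 0 ≤ K * R ^ 2 := mul_nonneg hK hR2
  have hKRc : 0 ≤ K * R ^ 2 / c := div_nonneg hKR hc.le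
  have hexp : K * (1 + 1 / c) * R ^ 2 = K * R ^ 2 + K * R ^ 2 / c := by
    field_simp
  -- the facts at a fixed time
  have key : ∀ t ∈ Ioo ts 0,
      E0 q Γ U t ≤ K * R ^ 2 ∧ E1 q g Γ U t ≤ K * R ^ 2 ∧
        (∫ s in ts..t, D0 q Γ U s) ≤ K * R ^ 2 / c ∧ (∫ s in ts..t, D1 q g Γ U s) ≤ K * R ^ 2 / c := by
    intro t ht
    have main := H2 ts hts U hU hU0 t ⟨ht.1.le, ht.2⟩
    have hI := hint t ht
    have hKI := mul_le_mul_of_nonneg_left hI hK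
    have hsub : uIcc ts t ⊆ Iio 0 := by
      rw [uIcc_of_le ht.1.le]
      exact fun x hx => lt_of_le_of_lt hx.2 ht.2
    have i0 : IntervalIntegrable (fun s => D0 q Γ U s) volume ts t := (hD0c.mono hsub).intervalIntegrable
    have i1 : IntervalIntegrable (fun s => D1 q g Γ U s) volume ts t := (hD1c.mono hsub).intervalIntegrable
    have hneg : ∀ x ∈ Icc ts t, x < 0 := fun x hx => lt_of_le_of_lt hx.2 ht.2
    have j0 : 0 ≤ ∫ s in ts..t, D0 q Γ U s :=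
      intervalIntegral.integral_nonneg ht.1.le (fun x hx => hD0n x (hneg x hx))
    have j1 : 0 ≤ ∫ s in ts..t, D1 q g Γ U s :=
      intervalIntegral.integral_nonneg ht.1.le (fun x hx => hD1n x (hneg x hx))
    have hadd : (∫ s in ts..t, (D0 q Γ U s + D1 q g Γ U s))
        = (∫ s in ts..t, D0 q Γ U s) + ∫ s in ts..t, D1 q g Γ U s :=
      intervalIntegral.integral_add i0 i1
    rw [hadd] at main
    have e0 := hE0n t ht.2
    have e1 := hE1n t ht.2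
    have hAE : E0 q Γ U t ≤ A * E0 q Γ U t := le_mul_of_one_le_left e0 hA
    have c0 := mul_nonneg hc.le j0
    have c1 := mul_nonneg hc.le j1
    have hsum : c * ((∫ s in ts..t, D0 q Γ U s) + ∫ s in ts..t, D1 q g Γ U s) ≤ K * R ^ 2 := by
      nlinarith
    refine ⟨by nlinarith, by nlinarith, ?_, ?_⟩
    · rw [le_div_iff₀ hc]
      nlinarith
    · rw [le_div_iff₀ hc]
      nlinarith
  refine ⟨fun t ht => ?_, fun t ht => ?_, fun t ht => ?_, fun t ht => ?_⟩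
  · rw [hCR, hexp]
    linarith [(key t ht).1]
  · rw [hCR, hexp]
    linarith [(key t ht).2.1]
  · rw [hCR, hexp]
    linarith [(key t ht).2.2.1]
  · rw [hCR, hexp]
    linarith [(key t ht).2.2.2]

end

end Claimed.Agent.R324.Core
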