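/-
Row 324 (S0582), PDE core, module LD (architect helper325).   Blueprint 7.4, tag LD0 (b).      FILE LD0/Energy:  THE ENERGY IDENTITY.
   `En q V u = 𝕀[X V n2 q u]`,   `n2 q u y = nk q (fun i => uV u i y)` (`n2_eq_nk`),   `ipK q ξ η = Σ κ_i ξ_i η_i`,  `nk q ξ = ipK q ξ ξ`   (Core/W/FormDefs.lean).      `Vp : Fn` a weight of class `SmS` (LD0/Defs.lean), `sl Vp t = fun y => Vp (t,y)`.
* `ld0_n2_dT`:   `s ↦ n2 q (slT U s) y = (q+1) U₀(s,y)² + 2 U₁(s,y)² + q/(q+1) (X U₂(s,y))²`;  `Sm.hasDerivAt_t`, `.pow`, `.const_mul`, `.add`;   unfold `ipK`, `kapJ`, `uV`, `Fin.sum_univ_three`; ring.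
* `ld0_En_deriv`:  `F p := Xf p.2 * Vp p * n2 q (slT U p.1) p.2` is `SmS` (`sm_Xf.smS`, `hV`, `cl_n2_sm`-type fact: `n2` of the slices is `Sm`: unfold `n2`, `slT`; `Sm.pow`, `Sm.mul`, `Sm.const_mul`, `Sm.add`);   `En q (sl Vp s) (slT U s) = II (sl F s)` by `rfl`/`unfold En Xf`;
     `ld0_dui`;    `dT F (t,y) = X ∂_t Vp n2 + X Vp · 2 ipK(u, u_t)` for `y ∈ [-1,1]` (`HasDerivAt.mul`, `SmS.hasDerivAt_t`, `ld0_n2_dT`; `dT_of_hasDerivAt`);  `ii_congr`, `ii_add`, `ii_const_mul` (continuity: `SmI.continuousOn`).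
* `ld0_energy`:  `u_t = uV (L U) + uV (dfL)` componentwise (`uV` is linear; `dfL` by definition), `ipK` is linear in the second argument;   `w1_form_id` (Core/W/FormId2.lean) with `om = sl Vp t`:
        `𝕀[X V ipK(u, uV(L U))] = -𝕀[V Z n2t] + 𝕀[zzF n2] + 𝕀[V quadM(u)]`.
-/
import Claimed.Agent.R324.Core.LD0.Defs

set_option autoImplicit false

namespace Claimed.Agent.R324.Core

open Set Filter Topology MeasureTheory
open scoped ContDiff

noncomputable section

variable {q t : ℝ} {g : Bg} {Vp : Fn} {U : Tri}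

theorem ld0_n2_sm (q : ℝ) (hU : ∀ j, Sm (U j)) :
    Sm (fun p => n2 q (slT U p.1) p.2) ∧ Sm (fun p => n2t q (slT U p.1) p.2) := by
  have hX : Sm (fun p => 1 - p.2 ^ 2) := (sm_const 1).sub (sm_snd.pow 2)
  constructor
  · unfold n2 slT
    exact ((((hU 0).pow 2).const_mul (q + 1)).add (((hU 1).pow 2).const_mul 2)).add
      (((hX.mul (hU 2)).pow 2).const_mul (q / (q + 1)))
  · have h0 := (hU 0).ttF
    have h1 := (hU 1).ttF
    have h2 := (hX.mul (hU 2)).ttF
    have key := (((h0.pow 2).const_mul (q + 1)).add ((h1.pow 2).const_mul 2)).add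
      ((h2.pow 2).const_mul (q / (q + 1)))
    exact key

theorem ld0_n2_dT (q : ℝ) (hU : ∀ j, Sm (U j)) (ht : t < 0) (y : ℝ) :
    HasDerivAt (fun s => n2 q (slT U s) y)
      (2 * ipK q (fun i => uV (slT U t) i y) (fun i => uV (slT (dTT U) t) i y)) t := by
  have h0 := (hU 0).hasDerivAt_t ht y
  have h1 := (hU 1).hasDerivAt_t ht y
  have h2 := (hU 2).hasDerivAt_t ht y
  have key := (((h0.fun_pow 2).const_mul (q + 1)).add ((h1.fun_pow 2).const_mul 2)).add
      (((h2.const_mul (1 - y ^ 2)).fun_pow 2).const_mul (q / (q + 1)))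
  refine HasDerivAt.congr_deriv (f := fun s => n2 q (slT U s) y) key ?_
  simp only [ipK, Fin.sum_univ_three, uV_zero, uV_one, uV_two, slT, dTT]
  simp [kapJ]
  ring

theorem ld0_En_deriv (q : ℝ) (hV : SmS Vp) (hU : ∀ j, Sm (U j)) (ht : t < 0) :
    HasDerivAt (fun s => En q (sl Vp s) (slT U s))
      (II (fun y => Xf y * dT Vp (t, y) * n2 q (slT U t) y)
        + 2 * II (fun y => Xf y * Vp (t, y) * ipK q (fun i => uV (slT U t) i y) (fun i => uV (slT (dTT U) t) i y))) t := by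
  have hF : SmS (fun p => Xf p.2 * Vp p * n2 q (slT U p.1) p.2) :=
    (sm_Xf.smS.mul hV).mul (ld0_n2_sm q hU).1.smS
  have hd := ld0_dui hF ht
  have hu : ∀ j, SmI (slT U t j) := smI_slT hU ht
  have hut : ∀ j, SmI (slT (dTT U) t j) := smI_slT (sm_dTT hU) ht
  have c1 : CI (fun y => Xf y * dT Vp (t, y) * n2 q (slT U t) y) :=
    (smI_Xf.mul (hV.dT.smI ht)).continuousOn.mul (ci_n2 hu)
  have c2 : CI (fun y => Xf y * Vp (t, y) * ipK q (fun i => uV (slT U t) i y) (fun i => uV (slT (dTT U) t) i y)) :=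
    ((smI_Xf.mul (hV.smI ht)).mul (w2fb_smI_ipK (smI_uV hu) (smI_uV hut))).continuousOn
  have e : II (sl (dT (fun p => Xf p.2 * Vp p * n2 q (slT U p.1) p.2)) t)
      = II (fun y => Xf y * dT Vp (t, y) * n2 q (slT U t) y)
        + 2 * II (fun y => Xf y * Vp (t, y) * ipK q (fun i => uV (slT U t) i y) (fun i => uV (slT (dTT U) t) i y)) := by
    have c2' : CI (fun y => 2 * (Xf y * Vp (t, y)
        * ipK q (fun i => uV (slT U t) i y) (fun i => uV (slT (dTT U) t) i y))) := continuousOn_const.mul c2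
    rw [← ii_const_mul, ← ii_add c1 c2']
    refine ii_congr fun y hy => ?_
    have h1 := ((hV.hasDerivAt_t ht hy).const_mul (Xf y)).mul (ld0_n2_dT q hU ht y)
    show dT (fun p => Xf p.2 * Vp p * n2 q (slT U p.1) p.2) (t, y) = _
    rw [dT_of_hasDerivAt (f := fun p => Xf p.2 * Vp p * n2 q (slT U p.1) p.2) h1]
    ring
  rw [← e]
  exact hd

/-- **the energy identity.** -/
theorem ld0_energy (q : ℝ) (hs : BgSm g) (hV : SmS Vp) (hU : ∀ j, Sm (U j)) (ht : t < 0) :
    HasDerivAt (fun s => En q (sl Vp s) (slT U s))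
      (II (fun y => (Xf y * dT Vp (t, y) + 2 * zzF q g (sl Vp t) t y) * n2 q (slT U t) y)
        + 2 * II (fun y => Vp (t, y) * quadM q g (t, y) (fun i => uV (slT U t) i y))
        - 2 * II (fun y => Vp (t, y) * g.Z (t, y) * n2t q (slT U t) y)
        + 2 * II (fun y => Xf y * Vp (t, y)
            * ipK q (fun i => uV (slT U t) i y) (fun i => uV (slT (dfL q g U) t) i y))) t := by
  have hd := ld0_En_deriv q hV hU ht
  have hom : SmI (sl Vp t) := hV.smI ht
  have hid := w1_form_id q hs hU ht hom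
  have hu : ∀ j, SmI (slT U t j) := smI_slT hU ht
  have hL : ∀ j, SmI (slT (Lop q g U) t j) := smI_slT (sm_Lop q hs hU) ht
  have hdf : ∀ j, Sm (dfL q g U j) := fun j => (hU j).dT.sub (sm_Lop q hs hU j)
  have hD : ∀ j, SmI (slT (dfL q g U) t j) := smI_slT hdf ht
  have hA : SmI (fun z => sl Vp t z * g.bh q (t, z)) := hom.mul ((hs.smbh q).smI ht)
  have hB : SmI (fun z => sl Vp t z * g.Z (t, z)) := hom.mul (hs.smZ.smI ht)
  have hZ : SmI (zzF q g (sl Vp t) t) := (hB.ttp.ttp.const_mul (1 / 2)).sub (hA.ttp.const_mul (1 / 2))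
  have c1 : CI (fun y => Xf y * dT Vp (t, y) * n2 q (slT U t) y) :=
    (smI_Xf.mul (hV.dT.smI ht)).continuousOn.mul (ci_n2 hu)
  have c2 : CI (fun y => zzF q g (sl Vp t) t y * n2 q (slT U t) y) := hZ.continuousOn.mul (ci_n2 hu)
  have c3 : CI (fun y => Xf y * Vp (t, y) * ipK q (fun i => uV (slT U t) i y) (fun i => uV (slT (Lop q g U) t) i y)) :=
    ((smI_Xf.mul hom).mul (w2fb_smI_ipK (smI_uV hu) (smI_uV hL))).continuousOn
  have c4 : CI (fun y => Xf y * Vp (t, y) * ipK q (fun i => uV (slT U t) i y) (fun i => uV (slT (dfL q g U) t) i y)) :=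
    ((smI_Xf.mul hom).mul (w2fb_smI_ipK (smI_uV hu) (smI_uV hD))).continuousOn
  have e1 : II (fun y => (Xf y * dT Vp (t, y) + 2 * zzF q g (sl Vp t) t y) * n2 q (slT U t) y)
      = II (fun y => Xf y * dT Vp (t, y) * n2 q (slT U t) y)
        + 2 * II (fun y => zzF q g (sl Vp t) t y * n2 q (slT U t) y) := by
    have c2' : CI (fun y => 2 * (zzF q g (sl Vp t) t y * n2 q (slT U t) y)) := continuousOn_const.mul c2
    rw [← ii_const_mul, ← ii_add c1 c2']
    refine ii_congr fun y _ => ?_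
    ring
  have e2 : II (fun y => Xf y * Vp (t, y) * ipK q (fun i => uV (slT U t) i y) (fun i => uV (slT (dTT U) t) i y))
      = II (fun y => Xf y * Vp (t, y) * ipK q (fun i => uV (slT U t) i y) (fun i => uV (slT (Lop q g U) t) i y))
        + II (fun y => Xf y * Vp (t, y) * ipK q (fun i => uV (slT U t) i y) (fun i => uV (slT (dfL q g U) t) i y)) := by
    rw [← ii_add c3 c4]
    refine ii_congr fun y _ => ?_
    simp only [ipK, Fin.sum_univ_three, uV_zero, uV_one, uV_two, slT, dTT, dfL]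
    ring
  refine hd.congr_deriv ?_
  rw [e1, e2]
  have hid' : II (fun y => Xf y * Vp (t, y) * ipK q (fun i => uV (slT U t) i y) (fun i => uV (slT (Lop q g U) t) i y))
      = -II (fun y => Vp (t, y) * g.Z (t, y) * n2t q (slT U t) y)
        + II (fun y => zzF q g (sl Vp t) t y * n2 q (slT U t) y)
        + II (fun y => Vp (t, y) * quadM q g (t, y) (fun i => uV (slT U t) i y)) := hid
  rw [hid']
  ring

end

end Claimed.Agent.R324.Core
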